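import Vale.Agent.P112.H724.Op
import Vale.Agent.P112.T.DefsN
import Vale.Agent.P112.T.Basic

/-!
# P112, chapter (T), single tree: the operator form for the data of `T/DefsN.lean`
-/

open MeasureTheory Set Filter Metric
open scoped ENNReal NNReal ContDiff
open Vale.Agent.P112.HL

namespace Vale.Agent.P112.TreeT2

/-- the shear `(x, c) ↦ (x, c + s x)` -/
def shear (s : ℝ) : (ℝ × ℝ) ≃ᵐ (ℝ × ℝ) where
  toFun z := (z.1, z.2 + s * z.1)
  invFun z := (z.1, z.2 - s * z.1)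
  left_inv z := by ext <;> simp
  right_inv z := by ext <;> simp
  measurable_toFun := by
    change Measurable fun z : ℝ × ℝ => (z.1, z.2 + s * z.1)
    fun_prop
  measurable_invFun := by
    change Measurable fun z : ℝ × ℝ => (z.1, z.2 - s * z.1)
    fun_prop

@[simp] theorem shear_fst (s : ℝ) (z : ℝ × ℝ) : (shear s z).1 = z.1 := rfl

@[simp] theorem shear_snd (s : ℝ) (z : ℝ × ℝ) : (shear s z).2 = z.2 + s * z.1 := rfl

theorem shear_mp (s : ℝ) : MeasurePreserving (shear s) (volume : Measure (ℝ × ℝ)) volume := by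
  have h1 : MeasurePreserving (fun p : ℝ × ℝ => (id p.1, (fun a b : ℝ => b + s * a) p.1 p.2))
      (volume.prod volume) (volume.prod volume) := by
    refine MeasurePreserving.skew_product (μa := (volume : Measure ℝ))
      (μb := (volume : Measure ℝ)) (μc := (volume : Measure ℝ)) (μd := (volume : Measure ℝ))
      (f := id) (g := fun a b : ℝ => b + s * a) (MeasurePreserving.id _) ?_ ?_
    · change Measurable fun q : ℝ × ℝ => q.2 + s * q.1
      fun_prop
    · refine Eventually.of_forall fun a => ?_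
      exact (measurePreserving_add_right (volume : Measure ℝ) (s * a)).map_eq
  rw [← Measure.volume_eq_prod] at h1
  exact h1

variable {M : ℕ}

theorem T_shear (κ : T.Ker M) (u f : ℝ × ℝ → ℝ) (j : ℕ) (s : ℝ) (z : ℝ × ℝ) :
    κ.T u j f (shear s z) =
      Tp κ.K κ.psi j (u (shear s z) - s) (fun w => f (shear s w)) z := by
  unfold T.Ker.T Tp
  rw [← (shear_mp s).integral_comp' (g := fun ζ => κ.k j (u (shear s z)) (shear s z) ζ * f ζ)]
  refine integral_congr_ae (Eventually.of_forall fun ζ => ?_)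
  simp only [T.Ker.k, Kj, shear_fst, shear_snd]
  congr 3
  ring

theorem lk_of_deriv {L : ℝ} {K : ℝ → ℝ} (hK : Differentiable ℝ K) (hd : ∀ t, |deriv K t| ≤ L)
    (h0 : ∀ t, 1 ≤ |t| → K t = 0) : LK L K := by
  refine ⟨fun s t => ?_, h0⟩
  have := Convex.norm_image_sub_le_of_norm_deriv_le (f := K) (s := univ) (x := t) (y := s) (C := L)
    (fun x _ => hK.differentiableAt)
    (fun x _ => by rw [Real.norm_eq_abs]; exact hd x) convex_univ (mem_univ _) (mem_univ _)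
  simpa [Real.norm_eq_abs] using this

theorem lk_K {κ : T.Ker M} {N C0 : ℝ} (hκ : κ.Bd N C0) : LK C0 κ.K := by
  refine lk_of_deriv (κ.smoothK.differentiable (by simp)) (fun t => ?_) fun t ht =>
    κ.suppK t (by linarith)
  have := hκ.K_bd 1 (by omega) t
  rwa [iteratedDeriv_one] at this

theorem psi_zero' (κ : T.Ker M) {t : ℝ} (ht : 1 ≤ |t|) : κ.psi t = 0 := by
  have hc := κ.psi_continuous
  have hcl : IsClosed {t : ℝ | κ.psi t = 0} := isClosed_eq hc continuous_const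
  rcases le_total 0 t with h | h
  · rw [abs_of_nonneg h] at ht
    have h1 : Ioi (1 : ℝ) ⊆ {t : ℝ | κ.psi t = 0} := fun x hx => by
      have hx' : 1 < x := hx
      exact κ.psi_zero (by rw [abs_of_pos (by linarith)]; exact hx')
    have h2 := closure_minimal h1 hcl
    rw [closure_Ioi] at h2
    exact h2 ht
  · rw [abs_of_nonpos h] at ht
    have h1 : Iio (-1 : ℝ) ⊆ {t : ℝ | κ.psi t = 0} := fun x hx => by
      have hx' : x < -1 := hx
      exact κ.psi_zero (by rw [abs_of_neg (by linarith)]; linarith)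
    have h2 := closure_minimal h1 hcl
    rw [closure_Iio] at h2
    exact h2 (show t ≤ -1 by linarith)

theorem lk_psi {κ : T.Ker M} {N C0 : ℝ} (hκ : κ.Bd N C0) : LK (C0 * N) κ.psi := by
  have hN : 0 < N := lt_of_lt_of_le one_pos hκ.one_le
  refine lk_of_deriv ?_ (fun t => ?_) fun t ht => psi_zero' κ ht
  · exact κ.smoothΦ.differentiable_iteratedDeriv M (by exact_mod_cast ENat.natCast_lt_top M)
  · have h1 := hκ.Φ_bd (M + 1) (by omega) t
    rw [iteratedDeriv_succ] at h1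
    refine h1.trans (le_of_eq ?_)
    rw [pow_succ]
    field_simp

theorem psi_bd {κ : T.Ker M} {N C0 : ℝ} (hκ : κ.Bd N C0) (t : ℝ) : |κ.psi t| ≤ C0 := by
  have hN : 0 < N := lt_of_lt_of_le one_pos hκ.one_le
  have h1 := hκ.Φ_bd M (by omega) t
  refine h1.trans (le_of_eq ?_)
  field_simp

/-- the operator form of the single tree estimate, exponent `p` -/
def OpN (p : ℝ) (M : ℕ) (A C0 : ℝ) : Prop := ∃ C : ℝ, 0 < C ∧ ∀ (N : ℝ) (κ : T.Ker M),
  κ.Bd N C0 → ∀ (τ : ℝ) (u : ℝ × ℝ → ℝ), T.Field u → ∀ (n : ℕ) (E : ℕ → Set (ℝ × ℝ)),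
    (∀ j, MeasurableSet (E j)) → ∀ s : ℝ,
    (∀ j < n, ∀ z ∈ E j, |u z - s| ≤ A * 2 ^ j / N) →
    (∀ z, ∀ i j k : ℕ, i ≤ j → j ≤ k → k < n → z ∈ E i → z ∈ E k → z ∈ E j) →
    ∀ δ : ℝ, 0 < δ →
    (∀ j1 < n, ∀ z1 ∈ E j1, ∀ i ≤ j1,
      volume {z : ℝ × ℝ | z ∈ T.Un E n ∧ T.q τ i z.1 = T.q τ i z1.1 ∧
        |(z.2 - s * z.1) - (z1.2 - s * z1.1)| ≤ 1 ∧ |u z - s| ≤ 2 * A * 2 ^ i / N} ≤
        ENNReal.ofReal (δ / 2 ^ i)) →
    ∀ f : ℝ × ℝ → ℝ, T.Nice f →
      ∫⁻ z in T.Un E n, ‖∑ j ∈ Finset.range n, (E j).indicator (κ.T u j f) z‖ₑ ^ p ≤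
        ENNReal.ofReal (C * δ) * ∫⁻ z, ‖f z‖ₑ ^ p

/-- **T2, operator form**, from the maximal theorem for truncated sums -/
theorem opN_of_maxH {p : ℝ} (hp : 1 < p) (M : ℕ) {A C0 : ℝ} (hA : 1 ≤ A) {C₁ : ℝ≥0∞}
    (hC₁ : C₁ ≠ ⊤) (hmax : MaxH p C0 C₁) : OpN p M A C0 := by
  have hp0 : 0 ≤ p := by linarith
  -- the constant
  set c : ℝ≥0∞ := 2 * (ENNReal.ofReal ((C0 * (1 + 8 * C0) + 12 * (C0 * A) * C0) *
    (2 * (A + 3))) ^ p * (CM p * (2 ^ (p - 1) * (C₁ + CM p)))) with hc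
  have hctop : c ≠ ⊤ := by
    rw [hc]
    refine ENNReal.mul_ne_top (by norm_num) (ENNReal.mul_ne_top
      (ENNReal.rpow_ne_top_of_nonneg hp0 ENNReal.ofReal_ne_top)
      (ENNReal.mul_ne_top (CM_ne_top p) (ENNReal.mul_ne_top
        (ENNReal.rpow_ne_top_of_nonneg (by linarith) (by norm_num))
        (ENNReal.add_ne_top.2 ⟨hC₁, CM_ne_top p⟩))))
  refine ⟨c.toReal + 1, by positivity, ?_⟩
  intro N κ hκ τ u hu n E hE s hslope hconv δ hδ hdens f hf
  have hN : 1 ≤ N := hκ.one_le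
  have hN0 : 0 < N := by linarith
  obtain ⟨Mf, hMf⟩ := hf.bdd
  obtain ⟨r, hr⟩ := hf.supp
  have hC0 : 0 ≤ C0 := (lk_K hκ).nonneg
  -- the sheared data
  set E' : ℕ → Set (ℝ × ℝ) := fun j => shear s ⁻¹' (E j) with hE'
  set u' : ℝ × ℝ → ℝ := fun z => u (shear s z) - s with hu'
  set f' : ℝ × ℝ → ℝ := fun z => f (shear s z) with hf'
  have hUn : T.Un E' n = shear s ⁻¹' (T.Un E n) := rfl
  have hAN : 0 ≤ A / N := by positivity
  have hAN' : A / N ≤ A := div_le_self (by linarith) hN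
  have hden : Den τ n E' u' (A / N) δ.toNNReal := by
    intro j₁ hj₁ z₁ hz₁ i hi
    have h1 := hdens j₁ hj₁ (shear s z₁) hz₁ i hi
    rw [← (shear_mp s).measure_preimage_equiv] at h1
    have h2 : (δ.toNNReal : ℝ≥0∞) * ENNReal.ofReal (1 / 2 ^ i) = ENNReal.ofReal (δ / 2 ^ i) := by
      rw [← ENNReal.ofReal, ← ENNReal.ofReal_mul hδ.le]
      congr 1
      ring
    rw [h2]
    refine (measure_mono ?_).trans h1
    rintro z ⟨ha, hb, hc, hd⟩
    refine ⟨ha, hb, ?_, ?_⟩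
    · simpa using hc
    · rw [mul_div_right_comm, mul_div_assoc]
      exact hd
  have hslope' : ∀ j < n, ∀ z ∈ E' j, |u' z| ≤ A / N * 2 ^ j := by
    intro j hj z hz
    have := hslope j hj (shear s z) hz
    rwa [mul_div_right_comm] at this
  have hD : C0 * N * (A / N) ≤ C0 * A := le_of_eq (by field_simp)
  have hLK := lk_K hκ
  have h0 := op_zero (τ := τ) hp hmax hLK κ.oddK (lk_psi hκ) (psi_bd hκ) hAN hD
    (u := u') (n := n) (E := E') (fun j => (shear s).measurable (hE j)) hslope'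
    (fun z i j k h1 h2 h3 h4 h5 => hconv (shear s z) i j k h1 h2 h3 h4 h5) hden
    (f := f') (hf.meas.comp (shear s).measurable) (M := Mf) (r := r) (fun z => hMf _)
    (fun z hz => hr _ (Or.inl hz))
  -- back to the original coordinates
  have h1 : ∫⁻ z in T.Un E n, ‖∑ j ∈ Finset.range n, (E j).indicator (κ.T u j f) z‖ₑ ^ p =
      ∫⁻ z in T.Un E' n, ‖∑ j ∈ Finset.range n, (E' j).indicator
        (fun z => Tp κ.K κ.psi j (u' z) f' z) z‖ₑ ^ p := by
    rw [hUn, ← (shear_mp s).setLIntegral_comp_preimage_emb (shear s).measurableEmbedding]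
    refine lintegral_congr fun z => ?_
    congr 2
    refine Finset.sum_congr rfl fun j _ => ?_
    by_cases hz : shear s z ∈ E j
    · have hz' : z ∈ E' j := hz
      rw [indicator_of_mem hz, indicator_of_mem hz', T_shear]
    · have hz' : z ∉ E' j := hz
      rw [indicator_of_notMem hz, indicator_of_notMem hz']
  have h2 : ∫⁻ z, ‖f' z‖ₑ ^ p = ∫⁻ z, ‖f z‖ₑ ^ p :=
    (shear_mp s).lintegral_comp_emb (shear s).measurableEmbedding fun z => ‖f z‖ₑ ^ p
  rw [h1]
  refine h0.trans ?_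
  rw [h2]
  gcongr
  have h3 : ENNReal.ofReal ((C0 * (1 + 8 * C0) + 12 * (C0 * A) * C0) * (2 * (A / N + 3))) ≤
      ENNReal.ofReal ((C0 * (1 + 8 * C0) + 12 * (C0 * A) * C0) * (2 * (A + 3))) := by
    apply ENNReal.ofReal_le_ofReal
    gcongr
  calc 2 * (δ.toNNReal : ℝ≥0∞) * (ENNReal.ofReal ((C0 * (1 + 8 * C0) + 12 * (C0 * A) * C0) *
        (2 * (A / N + 3))) ^ p * (CM p * (2 ^ (p - 1) * (C₁ + CM p))))
      ≤ 2 * (δ.toNNReal : ℝ≥0∞) * (ENNReal.ofReal ((C0 * (1 + 8 * C0) + 12 * (C0 * A) * C0) *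
        (2 * (A + 3))) ^ p * (CM p * (2 ^ (p - 1) * (C₁ + CM p)))) := by gcongr
    _ = c * (δ.toNNReal : ℝ≥0∞) := by rw [hc]; ring
    _ = ENNReal.ofReal c.toReal * ENNReal.ofReal δ := by
        rw [ENNReal.ofReal_toReal hctop]
        rfl
    _ = ENNReal.ofReal (c.toReal * δ) := (ENNReal.ofReal_mul ENNReal.toReal_nonneg).symm
    _ ≤ ENNReal.ofReal ((c.toReal + 1) * δ) := by
        apply ENNReal.ofReal_le_ofReal
        nlinarith

end Vale.Agent.P112.TreeT2
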