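import Vale.Agent.P112.F30.Defs
import Vale.Agent.P112.H724.OpN

/-!
# P112, chapter (F): the dense tops of one density level (`StFD2`)
-/

open MeasureTheory Set
open scoped ENNReal

namespace Vale.Agent.P112.H724

open T F30

/-! ### greedy selection -/

/-- Selection of a well spread subfamily, one of whose members of at most the same level is related
to every given member. -/
theorem select {D : Type*} [DecidableEq D] (R : D → D → Prop) (hrefl : ∀ d, R d d)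
    (lev : D → ℕ) (s : Finset D) :
    ∃ M ⊆ s, (∀ m ∈ M, ∀ m' ∈ M, m ≠ m' → ¬ R m m' ∨ ¬ R m' m) ∧
      ∀ d ∈ s, ∃ m ∈ M, R m d ∧ lev m ≤ lev d := by
  classical
  induction s using Finset.strongInduction with
  | H s ih =>
    rcases s.eq_empty_or_nonempty with rfl | hne
    · exact ⟨∅, Finset.Subset.refl _, by simp, by simp⟩
    · obtain ⟨d₀, hd₀, hmin⟩ := s.exists_min_image lev hne
      have hss : s.filter (fun d => ¬ R d₀ d) ⊂ s := by
        rw [Finset.filter_ssubset]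
        exact ⟨d₀, hd₀, not_not.2 (hrefl d₀)⟩
      obtain ⟨M, hM, h1, h2⟩ := ih _ hss
      refine ⟨insert d₀ M, ?_, ?_, ?_⟩
      · intro m hm
        rcases Finset.mem_insert.1 hm with rfl | hm
        · exact hd₀
        · exact (Finset.mem_filter.1 (hM hm)).1
      · intro m hm m' hm' hne'
        rcases Finset.mem_insert.1 hm with h3 | h3
        · rcases Finset.mem_insert.1 hm' with h4 | h4
          · exact absurd (h3.trans h4.symm) hne'
          · rw [h3]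
            exact Or.inl (Finset.mem_filter.1 (hM h4)).2
        · rcases Finset.mem_insert.1 hm' with h4 | h4
          · rw [h4]
            exact Or.inr (Finset.mem_filter.1 (hM h3)).2
          · exact h1 m h3 m' h4 hne'
      · intro d hd
        by_cases hR : R d₀ d
        · exact ⟨d₀, Finset.mem_insert_self _ _, hR, hmin d hd⟩
        · obtain ⟨m, hm, h3, h4⟩ := h2 d (Finset.mem_filter.2 ⟨hd, hR⟩)
          exact ⟨m, Finset.mem_insert_of_mem hm, h3, h4⟩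

/-! ### thin tiles -/

theorem q_nest {τ : ℝ} {i k : ℕ} (hik : i ≤ k) {x x' : ℝ} (h : q τ k x = q τ k x') :
    q τ i x = q τ i x' := by
  have h1 : ((x, (0 : ℝ)) : ℝ × ℝ) ∈ TreeT2.box τ k (x', 0) := by
    rw [TreeT2.mem_box, TreeT2.lab, TreeT2.lab, h]
  have h2 := TreeT2.box_mono hik (x', (0 : ℝ)) h1
  rw [TreeT2.mem_box, TreeT2.lab, TreeT2.lab, Prod.mk.injEq] at h2
  exact h2.1

theorem q_dist {τ : ℝ} {i : ℕ} {x x' : ℝ} (h : q τ i x = q τ i x') : |x - x'| ≤ 1 / 2 ^ i := by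
  have h1 : ((x, (0 : ℝ)) : ℝ × ℝ) ∈ TreeT2.box τ i (x', 0) := by
    rw [TreeT2.mem_box, TreeT2.lab, TreeT2.lab, h]
  exact TreeT2.abs_fst_of_mem h1

theorem measurable_q (τ : ℝ) (i : ℕ) : Measurable (q τ i) := by
  unfold T.q
  exact Int.measurable_floor.comp (by fun_prop)

variable {u : ℝ × ℝ → ℝ} {E : Set (ℝ × ℝ)}

theorem measurableSet_Et (hu : Measurable u) (hE : MeasurableSet E) (d : ℕ × ℤ × ℤ × ℤ) :
    MeasurableSet (Et u E d) := by
  unfold Et
  have h1 : Measurable fun z : ℝ × ℝ => q 0 d.1 z.1 := (measurable_q 0 d.1).comp measurable_fst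
  have h2 : Measurable fun z : ℝ × ℝ => ⌊u z / 2 ^ d.1⌋ :=
    Int.measurable_floor.comp (hu.div_const _)
  have h3 : Measurable fun z : ℝ × ℝ => ⌊z.2 - d.2.2.1 * 2 ^ d.1 * z.1⌋ :=
    Int.measurable_floor.comp (by fun_prop)
  exact hE.inter ((h1 (measurableSet_singleton _)).inter
    ((h2 (measurableSet_singleton _)).inter (h3 (measurableSet_singleton _))))

theorem volume_strip (i : ℕ) (k b : ℤ) (s : ℝ) :
    volume {z : ℝ × ℝ | q 0 i z.1 = k ∧ ⌊z.2 - s * z.1⌋ = b} = ENNReal.ofReal (1 / 2 ^ i) := by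
  rw [← (TreeT2.shear_mp s).measure_preimage_equiv]
  have h : TreeT2.shear s ⁻¹' {z : ℝ × ℝ | q 0 i z.1 = k ∧ ⌊z.2 - s * z.1⌋ = b} =
      TreeT2.box 0 i ((k : ℝ) / 2 ^ i, (b : ℝ)) := by
    ext z
    have h2 : (0 : ℝ) < 2 ^ i := by positivity
    simp only [mem_preimage, mem_ofPred_eq, TreeT2.shear_fst, TreeT2.shear_snd, TreeT2.mem_box,
      TreeT2.lab, Prod.mk.injEq, add_sub_cancel_right, Int.floor_intCast]
    have h3 : q 0 i ((k : ℝ) / 2 ^ i) = k := by
      unfold T.q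
      rw [sub_zero, mul_div_cancel₀ _ h2.ne', Int.floor_intCast]
    rw [h3]
  rw [h, TreeT2.volume_box]

theorem volume_Et_le (d : ℕ × ℤ × ℤ × ℤ) : volume (Et u E d) ≤ ENNReal.ofReal (1 / 2 ^ d.1) := by
  rw [← volume_strip d.1 d.2.1 d.2.2.2 (d.2.2.1 * 2 ^ d.1)]
  exact measure_mono fun z hz => ⟨hz.2.1, hz.2.2.2⟩

/-- the dense thin tiles of level `< n` are finitely many -/
theorem finite_dense (hu : Measurable u) (hE : MeasurableSet E) (hfin : volume E ≠ ∞) (n ν : ℕ) :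
    {d : ℕ × ℤ × ℤ × ℤ | d.1 < n ∧
      ENNReal.ofReal ((1 / 2) ^ (ν + 1) * (1 / 2) ^ d.1) ≤ volume (Et u E d)}.Finite := by
  have h1 : ∀ i : ℕ, {e : ℤ × ℤ × ℤ |
      ENNReal.ofReal ((1 / 2) ^ (ν + 1) * (1 / 2) ^ i) ≤ volume (Et u E (i, e))}.Finite := by
    intro i
    refine Measure.finite_const_le_meas_of_disjoint_iUnion volume
      (ε := ENNReal.ofReal ((1 / 2) ^ (ν + 1) * (1 / 2) ^ i)) (As := fun e => Et u E (i, e))
      (by rw [ENNReal.ofReal_pos]; positivity) (fun e => measurableSet_Et hu hE _) ?_ ?_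
    · intro e e' hne
      rw [Function.onFun, Set.disjoint_left]
      rintro z ⟨_, h1, h2, h3⟩ ⟨_, h1', h2', h3'⟩
      apply hne
      have e1 : e.1 = e'.1 := h1.symm.trans h1'
      have e2 : e.2.1 = e'.2.1 := h2.symm.trans h2'
      simp only at h3 h3'
      rw [← e2] at h3'
      have e3 : e.2.2 = e'.2.2 := h3.symm.trans h3'
      exact Prod.ext e1 (Prod.ext e2 e3)
    · refine ne_top_of_le_ne_top hfin (measure_mono ?_)
      exact iUnion_subset fun e z hz => hz.1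
  refine ((Finset.range n).finite_toSet.biUnion fun i _ =>
    (h1 i).image fun e => ((i, e) : ℕ × ℤ × ℤ × ℤ)).subset ?_
  rintro d ⟨hd, hv⟩
  simp only [mem_iUnion]
  exact ⟨d.1, by simpa using hd, d.2, hv, rfl⟩

/-- the top of a thin tile -/
noncomputable def tp (d : ℕ × ℤ × ℤ × ℤ) : ℕ × ℝ × ℝ × ℝ :=
  (d.1, d.2.2.1 * 2 ^ d.1, (d.2.1 : ℝ) / 2 ^ d.1,
    d.2.2.2 + d.2.2.1 * 2 ^ d.1 * ((d.2.1 : ℝ) / 2 ^ d.1))

/-- the line of a thin tile -/
noncomputable def ld (d : ℕ × ℤ × ℤ × ℤ) (x : ℝ) : ℝ := d.2.2.2 + d.2.2.1 * 2 ^ d.1 * x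

/-- the relation of two thin tiles -/
def Rel (H : ℝ) (d d' : ℕ × ℤ × ℤ × ℤ) : Prop :=
  ∃ x, q 0 d.1 x = d.2.1 ∧ q 0 d'.1 x = d'.2.1 ∧
    |(d.2.2.1 : ℝ) * 2 ^ d.1 - d'.2.2.1 * 2 ^ d'.1| ≤ 6 * 2 ^ max d.1 d'.1 ∧
    |ld d x - ld d' x| ≤ 2 * H

theorem Rel.symm {H : ℝ} {d d' : ℕ × ℤ × ℤ × ℤ} (h : Rel H d d') : Rel H d' d := by
  obtain ⟨x, h1, h2, h3, h4⟩ := h
  refine ⟨x, h2, h1, ?_, ?_⟩
  · rw [abs_sub_comm, max_comm]; exact h3
  · rw [abs_sub_comm]; exact h4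

theorem q_base (i : ℕ) (k : ℤ) : q 0 i ((k : ℝ) / 2 ^ i) = k := by
  unfold T.q
  have h2 : (0 : ℝ) < 2 ^ i := by positivity
  rw [sub_zero, mul_div_cancel₀ _ h2.ne', Int.floor_intCast]

theorem Rel.refl {H : ℝ} (hH : 0 ≤ H) (d : ℕ × ℤ × ℤ × ℤ) : Rel H d d := by
  refine ⟨(d.2.1 : ℝ) / 2 ^ d.1, q_base _ _, q_base _ _, ?_, ?_⟩
  · rw [sub_self, abs_zero]; positivity
  · rw [sub_self, abs_zero]; linarith

/-- **(FD2)** -/
theorem stFD2 (p : ℕ) : StFD2 p := by
  classical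
  refine ⟨8, by norm_num, ?_⟩
  intro u hu E hE hbdd n ν S H hH hS hSp
  have hH0 : 0 ≤ H := by linarith
  -- finiteness of the measure
  have hfin : volume E ≠ ∞ := by
    obtain ⟨r, hr⟩ := hbdd
    have hsub : E ⊆ Icc (-r) r ×ˢ Icc (-r) r := fun z hz => by
      obtain ⟨h1, h2⟩ := hr z hz
      exact ⟨abs_le.1 h1, abs_le.1 h2⟩
    refine ne_top_of_le_ne_top ?_ (measure_mono hsub)
    rw [Measure.volume_eq_prod, Measure.prod_prod]
    exact ENNReal.mul_ne_top (by simp) (by simp)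
  -- the selection
  set D := (finite_dense hu.meas hE hfin n ν).toFinset with hD
  have hDmem : ∀ d, d ∈ D ↔ d.1 < n ∧
      ENNReal.ofReal ((1 / 2) ^ (ν + 1) * (1 / 2) ^ d.1) ≤ volume (Et u E d) := by
    intro d
    rw [hD, Set.Finite.mem_toFinset, mem_ofPred_eq]
  obtain ⟨M0, hM0, hsep, hcov⟩ := select (Rel H) (Rel.refl hH0) (fun d => d.1) D
  have hsep' : ∀ m ∈ M0, ∀ m' ∈ M0, m ≠ m' → ¬ Rel H m m' := by
    intro m hm m' hm' hne hR
    rcases hsep m hm m' hm' hne with h | h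
    · exact h hR
    · exact h hR.symm
  let M : Tops M0 :=
    { j := fun m => m.1.1
      s := fun m => m.1.2.2.1 * 2 ^ m.1.1
      x := fun m => (m.1.2.1 : ℝ) / 2 ^ m.1.1
      y := fun m => m.1.2.2.2 + m.1.2.2.1 * 2 ^ m.1.1 * ((m.1.2.1 : ℝ) / 2 ^ m.1.1) }
  have hline : ∀ (m : M0) (x : ℝ), M.line m x = ld m.1 x := by
    intro m x
    simp only [Tops.line, ld, M]
    ring
  have hq : ∀ m : M0, q 0 (M.j m) (M.x m) = m.1.2.1 := fun m => q_base _ _
  -- the thin tile lies in the fat tube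
  have hEV : ∀ m : M0, Et u E m.1 ⊆ M.V u H m := by
    rintro m z ⟨_, h1, h2, h3⟩
    have h2' := Int.floor_eq_iff.1 h2
    have h3' := Int.floor_eq_iff.1 h3
    have h4 : (0 : ℝ) < 2 ^ m.1.1 := by positivity
    refine ⟨?_, ?_, ?_⟩
    · rw [hq]; exact h1
    · rw [hline, ld, abs_le]
      constructor <;> linarith [h3'.1, h3'.2]
    · have h5 := (le_div_iff₀ h4).1 h2'.1
      have h6 := (div_lt_iff₀ h4).1 h2'.2
      change |u z - (m.1.2.2.1 : ℝ) * 2 ^ m.1.1| ≤ 3 * 2 ^ m.1.1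
      rw [abs_le]
      constructor <;> linarith
  -- the fat tubes are disjoint
  have hdisj : ∀ m m' : M0, ∀ z, z ∈ M.V u H m → z ∈ M.V u H m' → m = m' := by
    rintro m m' z ⟨h1, h2, h3⟩ ⟨h1', h2', h3'⟩
    by_contra hne
    refine hsep' m.1 m.2 m'.1 m'.2 (fun h => hne (Subtype.ext h)) ?_
    rw [hq] at h1 h1'
    rw [hline] at h2 h2'
    refine ⟨z.1, h1, h1', ?_, ?_⟩
    · change |u z - (m.1.2.2.1 : ℝ) * 2 ^ m.1.1| ≤ 3 * 2 ^ m.1.1 at h3
      change |u z - (m'.1.2.2.1 : ℝ) * 2 ^ m'.1.1| ≤ 3 * 2 ^ m'.1.1 at h3'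
      have h4 : (2 : ℝ) ^ m.1.1 ≤ 2 ^ max m.1.1 m'.1.1 :=
        pow_le_pow_right₀ (by norm_num) (le_max_left _ _)
      have h5 : (2 : ℝ) ^ m'.1.1 ≤ 2 ^ max m.1.1 m'.1.1 :=
        pow_le_pow_right₀ (by norm_num) (le_max_right _ _)
      rw [abs_le] at h3 h3' ⊢
      constructor <;> linarith [h3.1, h3.2, h3'.1, h3'.2]
    · rw [abs_le] at h2 h2' ⊢
      constructor <;> linarith [h2.1, h2.2, h2'.1, h2'.2]
  refine ⟨M0, inferInstance, M, ?_, ?_, ?_, ?_, ?_⟩
  · -- total length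
    rw [ENNReal.ofReal_sum_of_nonneg fun m _ => by positivity]
    have h1 : ∀ m : M0, ENNReal.ofReal ((1 / 2) ^ M.j m) ≤
        ENNReal.ofReal (2 ^ (ν + 1)) * volume (Et u E m.1) := by
      intro m
      have h2 := ((hDmem m.1).1 (hM0 m.2)).2
      calc ENNReal.ofReal ((1 / 2) ^ M.j m)
          = ENNReal.ofReal (2 ^ (ν + 1)) *
            ENNReal.ofReal ((1 / 2) ^ (ν + 1) * (1 / 2) ^ m.1.1) := by
            rw [← ENNReal.ofReal_mul (by positivity), ← mul_assoc, ← mul_pow]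
            norm_num
            rfl
        _ ≤ _ := by gcongr
    calc ∑ m : M0, ENNReal.ofReal ((1 / 2) ^ M.j m)
        ≤ ∑ m : M0, ENNReal.ofReal (2 ^ (ν + 1)) * volume (Et u E m.1) :=
          Finset.sum_le_sum fun m _ => h1 m
      _ = ENNReal.ofReal (2 ^ (ν + 1)) * ∑ m : M0, volume (Et u E m.1) := by
          rw [Finset.mul_sum]
      _ = ENNReal.ofReal (2 ^ (ν + 1)) * volume (⋃ m : M0, Et u E m.1) := by
          rw [measure_iUnion (fun m m' hne => ?_) fun m => measurableSet_Et hu.meas hE _,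
            tsum_fintype]
          rw [Function.onFun, Set.disjoint_left]
          intro z hz hz'
          exact hne (hdisj m m' z (hEV m hz) (hEV m' hz'))
      _ ≤ ENNReal.ofReal (2 ^ (ν + 1)) * volume E := by
          gcongr
          exact iUnion_subset fun m z hz => hz.1
  · -- overlap
    intro z F hF
    have h1 : F.card ≤ 1 := by
      rw [Finset.card_le_one]
      intro m hm m' hm'
      exact hdisj m m' z (hF m hm) (hF m' hm')
    have h2 : (F.card : ℝ) ≤ 1 := by exact_mod_cast h1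
    linarith
  · -- the dense tile
    intro m
    exact ⟨m.1, rfl, hEV m, ((hDmem m.1).1 (hM0 m.2)).2⟩
  · intro m
    exact ((hDmem m.1).1 (hM0 m.2)).1
  · -- covering
    intro j z hz
    obtain ⟨hzE, hjn, hlow, -⟩ := hz
    unfold dens at hlow
    obtain ⟨d, hd⟩ := lt_iSup_iff.1 hlow
    split_ifs at hd with hcond
    · obtain ⟨hdj, hdq⟩ := hcond
      have hj0 : (0 : ℝ) < 2 ^ j := by positivity
      set X : ℝ := 1 + |u z - d.2.2.1 * 2 ^ d.1| / 2 ^ j +
        |z.2 - d.2.2.2 - d.2.2.1 * 2 ^ d.1 * z.1| with hX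
      have hX1 : 1 ≤ X := by
        rw [hX]
        have h1 : 0 ≤ |u z - d.2.2.1 * 2 ^ d.1| / 2 ^ j := by positivity
        have h2 := abs_nonneg (z.2 - d.2.2.2 - d.2.2.1 * 2 ^ d.1 * z.1)
        linarith
      have hXp : (1 : ℝ) ≤ X ^ p := one_le_pow₀ hX1
      have hXp0 : ENNReal.ofReal (X ^ p) ≠ 0 := by
        rw [Ne, ENNReal.ofReal_eq_zero, not_le]; linarith
      rw [ENNReal.lt_div_iff_mul_lt (Or.inl hXp0) (Or.inl ENNReal.ofReal_ne_top)] at hd
      have hhalf : ((1 : ℝ≥0∞) / 2) ^ (ν + 1) = ENNReal.ofReal ((1 / 2) ^ (ν + 1)) := by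
        rw [ENNReal.ofReal_pow (by norm_num), ENNReal.ofReal_div_of_pos (by norm_num)]
        norm_num
      have htwo : (2 : ℝ≥0∞) ^ d.1 = ENNReal.ofReal (2 ^ d.1) := by
        rw [ENNReal.ofReal_pow (by norm_num)]
        norm_num
      rw [hhalf, htwo, ← ENNReal.ofReal_mul (by positivity)] at hd
      -- the tile is dense
      have hdense : ENNReal.ofReal ((1 / 2) ^ (ν + 1) * (1 / 2) ^ d.1) ≤ volume (Et u E d) := by
        have h1 : ENNReal.ofReal ((1 / 2) ^ (ν + 1)) ≤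
            volume (Et u E d) * ENNReal.ofReal (2 ^ d.1) := by
          refine le_trans (ENNReal.ofReal_le_ofReal ?_) hd.le
          have : (0 : ℝ) < (1 / 2) ^ (ν + 1) := by positivity
          nlinarith
        calc ENNReal.ofReal ((1 / 2) ^ (ν + 1) * (1 / 2) ^ d.1)
            = ENNReal.ofReal ((1 / 2) ^ (ν + 1)) * ENNReal.ofReal ((1 / 2) ^ d.1) :=
              ENNReal.ofReal_mul (by positivity)
          _ ≤ volume (Et u E d) * ENNReal.ofReal (2 ^ d.1) * ENNReal.ofReal ((1 / 2) ^ d.1) := by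
              gcongr
          _ = volume (Et u E d) := by
              rw [mul_assoc, ← ENNReal.ofReal_mul (by positivity), ← mul_pow]
              norm_num
      -- the weight is bounded
      have hXS : X < S := by
        have h1 := volume_Et_le (u := u) (E := E) d
        have h2 : ENNReal.ofReal ((1 / 2) ^ (ν + 1) * X ^ p) < 1 := by
          refine lt_of_lt_of_le hd ?_
          calc volume (Et u E d) * ENNReal.ofReal (2 ^ d.1)
              ≤ ENNReal.ofReal (1 / 2 ^ d.1) * ENNReal.ofReal (2 ^ d.1) := by gcongr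
            _ = 1 := by
                rw [← ENNReal.ofReal_mul (by positivity), one_div_mul_cancel (by positivity),
                  ENNReal.ofReal_one]
        rw [← ENNReal.ofReal_one, ENNReal.ofReal_lt_ofReal_iff one_pos] at h2
        have h3 : X ^ p < S ^ p := by
          refine lt_of_lt_of_le ?_ hSp
          have h4 : (0 : ℝ) < 2 ^ (ν + 1) := by positivity
          have h5 : (1 / 2 : ℝ) ^ (ν + 1) * 2 ^ (ν + 1) = 1 := by rw [← mul_pow]; norm_num
          calc X ^ p = (1 / 2 : ℝ) ^ (ν + 1) * 2 ^ (ν + 1) * X ^ p := by rw [h5, one_mul]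
            _ = ((1 / 2) ^ (ν + 1) * X ^ p) * 2 ^ (ν + 1) := by ring
            _ < 1 * 2 ^ (ν + 1) := by gcongr
            _ = 2 ^ (ν + 1) := one_mul _
        exact lt_of_pow_lt_pow_left₀ p (by linarith) h3
      have hsl : |u z - d.2.2.1 * 2 ^ d.1| ≤ S * 2 ^ j := by
        have h1 : |u z - d.2.2.1 * 2 ^ d.1| / 2 ^ j ≤ S := by
          have h2 := abs_nonneg (z.2 - d.2.2.2 - d.2.2.1 * 2 ^ d.1 * z.1)
          linarith
        rwa [div_le_iff₀ hj0] at h1
      have hof : |z.2 - d.2.2.2 - d.2.2.1 * 2 ^ d.1 * z.1| ≤ S := by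
        have h1 : 0 ≤ |u z - d.2.2.1 * 2 ^ d.1| / 2 ^ j := by positivity
        linarith
      -- the selected top
      obtain ⟨m, hm, ⟨x, hx1, hx2, hx3, hx4⟩, hlev⟩ :=
        hcov d ((hDmem d).2 ⟨lt_of_le_of_lt hdj hjn, hdense⟩)
      have hmax : max m.1 d.1 = d.1 := max_eq_right hlev
      rw [hmax] at hx3
      have hzx : q 0 d.1 z.1 = q 0 d.1 x := hdq.trans hx2.symm
      have hcell : q 0 m.1 z.1 = m.2.1 := (q_nest hlev hzx).trans hx1
      have hdist := q_dist hzx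
      have hd0 : (0 : ℝ) < 2 ^ d.1 := by positivity
      have hdj' : (2 : ℝ) ^ d.1 ≤ 2 ^ j := pow_le_pow_right₀ (by norm_num) hdj
      refine ⟨⟨m, hm⟩, le_trans hlev hdj, ?_, ?_, ?_⟩
      · rw [hq]; exact hcell
      · change |u z - (m.2.2.1 : ℝ) * 2 ^ m.1| ≤ 8 * S * 2 ^ j
        have h1 := abs_sub_le (u z) (d.2.2.1 * 2 ^ d.1) ((m.2.2.1 : ℝ) * 2 ^ m.1)
        rw [abs_sub_comm ((d.2.2.1 : ℝ) * 2 ^ d.1)] at h1
        nlinarith
      · rw [hline]
        have h1 : z.2 - ld m z.1 = (z.2 - d.2.2.2 - d.2.2.1 * 2 ^ d.1 * z.1) - (ld m x - ld d x) -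
            ((m.2.2.1 : ℝ) * 2 ^ m.1 - d.2.2.1 * 2 ^ d.1) * (z.1 - x) := by
          unfold ld
          ring
        have h2 : |((m.2.2.1 : ℝ) * 2 ^ m.1 - d.2.2.1 * 2 ^ d.1) * (z.1 - x)| ≤ 6 := by
          rw [abs_mul]
          calc |(m.2.2.1 : ℝ) * 2 ^ m.1 - d.2.2.1 * 2 ^ d.1| * |z.1 - x|
              ≤ 6 * 2 ^ d.1 * (1 / 2 ^ d.1) := by gcongr
            _ = 6 := by field_simp
        change |z.2 - ld m z.1| ≤ 8 * (S + H)
        rw [h1]
        have h3 := abs_sub ((z.2 - d.2.2.2 - d.2.2.1 * 2 ^ d.1 * z.1) - (ld m x - ld d x))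
          (((m.2.2.1 : ℝ) * 2 ^ m.1 - d.2.2.1 * 2 ^ d.1) * (z.1 - x))
        have h4 := abs_sub (z.2 - d.2.2.2 - d.2.2.1 * 2 ^ d.1 * z.1) (ld m x - ld d x)
        linarith
    · exact absurd hd (by simp)

end Vale.Agent.P112.H724
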