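import Vale.Agent.P112.H724.OpN
import Vale.Agent.P112.H967.MaxH
import Vale.Agent.P112.T580.DualN

/-!
# P112, chapter (T): the single tree estimate `StN2`, `StT2`
-/

open MeasureTheory Set Filter Metric
open scoped ENNReal NNReal
open Vale.Agent.P112.HL

namespace Vale.Agent.P112.TreeT2

theorem hk_of {L : ℝ} {K : ℝ → ℝ} (h : LK L K) (hodd : ∀ t, K (-t) = -K t) : HK K L :=
  ⟨hodd, h.lip, h.zero⟩

theorem Hs_le_MK {L : ℝ} {K : ℝ → ℝ} (h : LK L K) {φ : ℝ → ℝ} (hφ : Measurable φ) {M : ℝ}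
    (hM : ∀ t, |φ t| ≤ M) (n : ℕ) (x : ℝ) : Hs K n φ x ≤ MK K φ x := by
  refine iSup_le fun a => iSup_le fun b => iSup_le fun _ => ?_
  refine le_iSup_of_le a (le_iSup_of_le b (le_of_eq ?_))
  congr 1
  unfold cj H158.cv SK
  rw [← integral_finsetSum _ fun j _ => integrable_cj h hφ hM j x]
  refine integral_congr_ae (Eventually.of_forall fun ξ => ?_)
  simp only [Kj, Finset.sum_mul]

/-- the maximal theorem from the `L^p` bounds of the full sums (helper967) -/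
theorem maxH_of {p L : ℝ} (hp : 1 < p) {B : ℝ≥0∞}
    (hB : ∀ K, HK K L → ∀ n g, BC g → ∫⁻ x, ‖H158.cv (SK K 0 n) g x‖ₑ ^ p ≤
      B * ∫⁻ x, ‖g x‖ₑ ^ p) :
    MaxH p L (2 ^ (p - 1) * (4 ^ p * (CM p * B) + ENNReal.ofReal (544 * L + 1) ^ p * CM p)) := by
  intro K hK hodd n φ hφ hM _
  obtain ⟨M, hM⟩ := hM
  have h1 := MK_Lp_of (hk_of hK hodd) hp (hB K (hk_of hK hodd)) hφ
  refine (lintegral_mono fun x => ?_).trans h1
  exact ENNReal.rpow_le_rpow (Hs_le_MK hK hφ hM n x) (by linarith)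

theorem maxH_two (L : ℝ) : MaxH 2 L (CH2 L) := by
  intro K hK hodd n φ hφ hM _
  obtain ⟨M, hM⟩ := hM
  have h1 := MK_L2 (hk_of hK hodd) hφ
  simp only [ENNReal.rpow_two]
  refine (lintegral_mono fun x => ?_).trans h1
  gcongr
  exact Hs_le_MK hK hφ hM n x

theorem opN_two (M : ℕ) {A : ℝ} (C0 : ℝ) (hA : 1 ≤ A) : OpN 2 M A C0 :=
  opN_of_maxH (by norm_num) M hA (CH2_ne_top C0) (maxH_two C0)

theorem opBN_of {p : ℝ} {M : ℕ} {A C0 : ℝ} (h : OpN p M A C0) : T580.OpBN p M A C0 := by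
  obtain ⟨C, hC, h⟩ := h
  refine ⟨C, hC, ?_⟩
  intro N κ hκ τ u hu n E s δ hT f hf
  exact h N κ hκ τ u hu n E hT.meas s hT.slope hT.conv δ hT.pos hT.dens f hf

/-- **T2 with the frequency parameter** -/
theorem stN2 (M : ℕ) {A : ℝ} (C0 : ℝ) (hA : 1 ≤ A) : T.StN2 M A C0 :=
  T580.stN2_of_opBN (opBN_of (opN_two M C0 hA))

theorem exists_bd {f : ℝ → ℝ} (hf : ContDiff ℝ ((⊤ : ℕ∞) : WithTop ℕ∞) f)
    (hs : ∀ t, 1 ≤ |t| → f t = 0) (m : ℕ) : ∃ C, ∀ a ≤ m, ∀ t, |iteratedDeriv a f t| ≤ C := by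
  have hcs : HasCompactSupport f :=
    HasCompactSupport.of_support_subset_isCompact (isCompact_closedBall (0 : ℝ) 1) fun t ht => by
      rw [mem_closedBall, dist_zero_right, Real.norm_eq_abs]
      by_contra h
      push Not at h
      exact ht (hs t h.le)
  have h1 : ∀ a : ℕ, ∃ C, ∀ t, |iteratedDeriv a f t| ≤ C := by
    intro a
    have hc : Continuous (iteratedDeriv a f) :=
      hf.continuous_iteratedDeriv a (by exact_mod_cast le_top)
    have hs' : HasCompactSupport (iteratedDeriv a f) := by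
      induction a with
      | zero => simpa using hcs
      | succ a ih =>
        rw [iteratedDeriv_succ]
        exact (ih (hf.continuous_iteratedDeriv a (by exact_mod_cast le_top))).deriv
    obtain ⟨C, hC⟩ := hc.bounded_above_of_compact_support hs'
    exact ⟨C, fun t => by rw [← Real.norm_eq_abs]; exact hC t⟩
  choose D hD using h1
  refine ⟨∑ a ∈ Finset.range (m + 1), |D a|, fun a ha t => (hD a t).trans ?_⟩
  exact (le_abs_self _).trans (Finset.single_le_sum (f := fun a => |D a|)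
    (fun i _ => abs_nonneg _) (Finset.mem_range.2 (by omega)))

/-- every kernel has bounds with `N = 1` -/
theorem exists_Bd {M : ℕ} (κ : T.Ker M) : ∃ C0, κ.Bd 1 C0 := by
  obtain ⟨C1, h1⟩ := exists_bd κ.smoothΦ κ.suppΦ (2 * M + 2)
  obtain ⟨C2, h2⟩ := exists_bd κ.smoothK (fun t ht => κ.suppK t (by linarith)) (2 * M + 2)
  refine ⟨max C1 C2, le_rfl, fun a ha t => ?_, fun a ha t => (h2 a ha t).trans (le_max_right _ _)⟩
  rw [one_pow, one_pow, mul_one, div_one]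
  exact (h1 a ha t).trans (le_max_left _ _)

/-- **T2** -/
theorem stT2 {M : ℕ} (κ : T.Ker M) {A : ℝ} (hA : 1 ≤ A) : T.StT2 κ A := by
  obtain ⟨C0, hκ⟩ := exists_Bd κ
  obtain ⟨C, hC, h⟩ := stN2 M C0 hA
  refine ⟨C, hC, ?_⟩
  intro τ u hu n E hE s hs hconv δ hδ hd g hg
  exact h 1 κ hκ τ u hu n E hE s (by simpa using hs) hconv δ hδ (by simpa using hd) g hg

/-- the operators on a tree, `L^2`, all kernels -/
theorem opB_two {M : ℕ} (κ : T.Ker M) {A : ℝ} (hA : 1 ≤ A) : T580.OpB 2 κ A := by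
  obtain ⟨C0, hκ⟩ := exists_Bd κ
  obtain ⟨C, hC, h⟩ := opN_two M C0 hA
  refine ⟨C, hC, ?_⟩
  intro τ u hu n E hE s hs hconv δ hδ hd f hf
  exact h 1 κ hκ τ u hu n E hE s (by simpa using hs) hconv δ hδ (by simpa using hd) f hf

end Vale.Agent.P112.TreeT2
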