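import Vale.Agent.P112.T.Defs

/-!
# P112, chapter (T), single tree: maximal boxes and the density gain

Coordinates are those of the slope of the tree (slope `0`).  `box τ i z` is the box of generation
`i` containing `z`: an interval of length `2^(-i)` of the dyadic grid shifted by `τ` in the first
variable and a unit interval in the second one.
-/

open MeasureTheory Set Filter
open scoped ENNReal NNReal

namespace Vale.Agent.P112.TreeT2

theorem floor_half (t : ℝ) : ⌊t⌋ = ⌊2 * t⌋ / 2 := by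
  have h1 := Int.floor_le (2 * t)
  have h2 := Int.lt_floor_add_one (2 * t)
  have h3 : 2 * (⌊2 * t⌋ / 2) ≤ ⌊2 * t⌋ := by omega
  have h4 : ⌊2 * t⌋ ≤ 2 * (⌊2 * t⌋ / 2) + 1 := by omega
  have h5 : (2 : ℝ) * ((⌊2 * t⌋ / 2 : ℤ) : ℝ) ≤ ⌊2 * t⌋ := by exact_mod_cast h3
  have h6 : (⌊2 * t⌋ : ℝ) ≤ 2 * ((⌊2 * t⌋ / 2 : ℤ) : ℝ) + 1 := by exact_mod_cast h4
  rw [Int.floor_eq_iff]
  constructor <;> linarith

/-- the label of the box of generation `i` containing `z` -/
noncomputable def lab (τ : ℝ) (i : ℕ) (z : ℝ × ℝ) : ℤ × ℤ := (T.q τ i z.1, ⌊z.2⌋)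

/-- the box of generation `i` containing `z` -/
def box (τ : ℝ) (i : ℕ) (z : ℝ × ℝ) : Set (ℝ × ℝ) := {w | lab τ i w = lab τ i z}

variable {τ : ℝ}

theorem mem_box {i : ℕ} {z w : ℝ × ℝ} : w ∈ box τ i z ↔ lab τ i w = lab τ i z := Iff.rfl

theorem mem_box_self (i : ℕ) (z : ℝ × ℝ) : z ∈ box τ i z := rfl

theorem mem_box_comm {i : ℕ} {z w : ℝ × ℝ} : w ∈ box τ i z ↔ z ∈ box τ i w := by
  rw [mem_box, mem_box, eq_comm]

theorem box_eq {i : ℕ} {z w : ℝ × ℝ} (h : w ∈ box τ i z) : box τ i w = box τ i z := by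
  ext v
  rw [mem_box, mem_box, mem_box.1 h]

theorem measurable_lab (i : ℕ) : Measurable (lab τ i) := by
  unfold lab T.q
  refine Measurable.prodMk ?_ ?_
  · exact Int.measurable_floor.comp ((measurable_fst.sub_const τ).const_mul _)
  · exact Int.measurable_floor.comp measurable_snd

theorem measurableSet_box (i : ℕ) (z : ℝ × ℝ) : MeasurableSet (box τ i z) :=
  (measurable_lab i) (measurableSet_singleton (lab τ i z))

theorem box_succ {i : ℕ} {z w : ℝ × ℝ} (h : w ∈ box τ (i + 1) z) : w ∈ box τ i z := by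
  rw [mem_box, lab, lab, Prod.mk.injEq] at h ⊢
  refine ⟨?_, h.2⟩
  have h1 := h.1
  unfold T.q at h1 ⊢
  rw [floor_half ((2 : ℝ) ^ i * (w.1 - τ)), floor_half ((2 : ℝ) ^ i * (z.1 - τ)),
    show 2 * ((2 : ℝ) ^ i * (w.1 - τ)) = (2 : ℝ) ^ (i + 1) * (w.1 - τ) by ring,
    show 2 * ((2 : ℝ) ^ i * (z.1 - τ)) = (2 : ℝ) ^ (i + 1) * (z.1 - τ) by ring, h1]

theorem box_mono {i k : ℕ} (hik : i ≤ k) (z : ℝ × ℝ) : box τ k z ⊆ box τ i z := by
  induction k, hik using Nat.le_induction with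
  | base => exact Subset.rfl
  | succ k _ ih => exact fun w hw => ih (box_succ hw)

theorem floor_eq_set (k : ℤ) (i : ℕ) (τ : ℝ) :
    {x : ℝ | ⌊(2 : ℝ) ^ i * (x - τ)⌋ = k} =
      Ico ((k : ℝ) / 2 ^ i + τ) (((k : ℝ) + 1) / 2 ^ i + τ) := by
  ext x
  have h2 : (0 : ℝ) < 2 ^ i := by positivity
  have h3 : (k : ℝ) / 2 ^ i + τ ≤ x ↔ (k : ℝ) ≤ 2 ^ i * (x - τ) := by
    rw [← le_sub_iff_add_le, div_le_iff₀ h2, mul_comm (x - τ)]
  have h4 : x < ((k : ℝ) + 1) / 2 ^ i + τ ↔ 2 ^ i * (x - τ) < (k : ℝ) + 1 := by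
    rw [← sub_lt_iff_lt_add, lt_div_iff₀ h2, mul_comm (x - τ)]
  rw [mem_ofPred_eq, Int.floor_eq_iff, mem_Ico, h3, h4]

theorem box_prod (i : ℕ) (z : ℝ × ℝ) :
    box τ i z = {x : ℝ | ⌊(2 : ℝ) ^ i * (x - τ)⌋ = ⌊(2 : ℝ) ^ i * (z.1 - τ)⌋} ×ˢ
      {y : ℝ | ⌊(2 : ℝ) ^ 0 * (y - 0)⌋ = ⌊z.2⌋} := by
  ext w
  simp [box, lab, T.q, Prod.ext_iff]

theorem volume_box (i : ℕ) (z : ℝ × ℝ) : volume (box τ i z) = ENNReal.ofReal (1 / 2 ^ i) := by
  rw [box_prod, floor_eq_set, floor_eq_set, Measure.volume_eq_prod, Measure.prod_prod,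
    Real.volume_Ico, Real.volume_Ico, ← ENNReal.ofReal_mul]
  · congr 1
    ring
  · rw [add_sub_add_right_eq_sub, ← sub_div]
    have : (0 : ℝ) < 2 ^ i := by positivity
    apply div_nonneg _ this.le
    linarith

theorem abs_fst_of_mem {i : ℕ} {z w : ℝ × ℝ} (h : w ∈ box τ i z) :
    |w.1 - z.1| ≤ 1 / 2 ^ i := by
  rw [mem_box, lab, lab, Prod.mk.injEq] at h
  have h0 := h.1
  unfold T.q at h0
  have h2 : (0 : ℝ) < 2 ^ i := by positivity
  have h3 := Int.floor_le ((2 : ℝ) ^ i * (w.1 - τ))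
  have h4 := Int.lt_floor_add_one ((2 : ℝ) ^ i * (w.1 - τ))
  have h5 := Int.floor_le ((2 : ℝ) ^ i * (z.1 - τ))
  have h6 := Int.lt_floor_add_one ((2 : ℝ) ^ i * (z.1 - τ))
  rw [h0] at h3 h4
  rw [le_div_iff₀ h2]
  have h7 : |(2 : ℝ) ^ i * (w.1 - z.1)| ≤ 1 := by
    rw [abs_le]; constructor <;> linarith
  rwa [abs_mul, abs_of_pos h2, mul_comm] at h7

theorem abs_snd_of_mem {i : ℕ} {z w : ℝ × ℝ} (h : w ∈ box τ i z) : |w.2 - z.2| ≤ 1 := by
  rw [mem_box, lab, lab, Prod.mk.injEq] at h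
  have h3 := Int.floor_le w.2
  have h4 := Int.lt_floor_add_one w.2
  have h5 := Int.floor_le z.2
  have h6 := Int.lt_floor_add_one z.2
  rw [h.2] at h3 h4
  rw [abs_le]; constructor <;> linarith

/-! ## the generation of the maximal box -/

/-- the box of generation `i` containing `z` meets no `E j` with `2^(-j) < 2^(-i)` -/
def Good (τ : ℝ) (n : ℕ) (E : ℕ → Set (ℝ × ℝ)) (i : ℕ) (z : ℝ × ℝ) : Prop :=
  ∀ j, i < j → j < n → ∀ w ∈ box τ i z, w ∉ E j

theorem exists_good (τ : ℝ) (n : ℕ) (E : ℕ → Set (ℝ × ℝ)) (z : ℝ × ℝ) : ∃ i, Good τ n E i z :=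
  ⟨n, fun j h1 h2 => absurd h2 (by omega)⟩

theorem good_congr {n : ℕ} {E : ℕ → Set (ℝ × ℝ)} {i : ℕ} {z w : ℝ × ℝ} (h : w ∈ box τ i z) :
    Good τ n E i w ↔ Good τ n E i z := by
  unfold Good
  rw [box_eq h]

open Classical in
/-- the generation of the maximal good box containing `z` -/
noncomputable def gen (τ : ℝ) (n : ℕ) (E : ℕ → Set (ℝ × ℝ)) (z : ℝ × ℝ) : ℕ :=
  Nat.find (exists_good τ n E z)

theorem gen_good (τ : ℝ) (n : ℕ) (E : ℕ → Set (ℝ × ℝ)) (z : ℝ × ℝ) :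
    Good τ n E (gen τ n E z) z := by
  classical
  exact Nat.find_spec (exists_good τ n E z)

theorem gen_min {n : ℕ} {E : ℕ → Set (ℝ × ℝ)} {z : ℝ × ℝ} {i : ℕ} (h : i < gen τ n E z) :
    ¬ Good τ n E i z := by
  classical
  exact Nat.find_min (exists_good τ n E z) h

theorem gen_le {n : ℕ} {E : ℕ → Set (ℝ × ℝ)} {z : ℝ × ℝ} {i : ℕ} (h : Good τ n E i z) :
    gen τ n E z ≤ i := by
  classical
  exact Nat.find_min' (exists_good τ n E z) h

/-- all the scales of the tree at `z` are at least the length of the maximal box -/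
theorem le_gen {n : ℕ} {E : ℕ → Set (ℝ × ℝ)} {z : ℝ × ℝ} {j : ℕ} (hj : j < n) (hz : z ∈ E j) :
    j ≤ gen τ n E z := by
  by_contra h
  push Not at h
  exact gen_good τ n E z j h hj z (mem_box_self _ z) hz

theorem gen_congr {n : ℕ} {E : ℕ → Set (ℝ × ℝ)} {z w : ℝ × ℝ} (h : w ∈ box τ (gen τ n E z) z) :
    gen τ n E w = gen τ n E z := by
  have h1 : gen τ n E w ≤ gen τ n E z := gen_le ((good_congr h).2 (gen_good τ n E z))
  refine le_antisymm h1 ?_
  by_contra h2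
  push Not at h2
  have h3 : w ∈ box τ (gen τ n E w) z := box_mono h1 z h
  exact gen_min h2 ((good_congr h3).1 (gen_good τ n E w))

theorem rel_symm {n : ℕ} {E : ℕ → Set (ℝ × ℝ)} {z w : ℝ × ℝ} (h : w ∈ box τ (gen τ n E z) z) :
    z ∈ box τ (gen τ n E w) w := by
  rw [gen_congr h]
  exact mem_box_comm.1 h

theorem measurableSet_good (τ : ℝ) (n : ℕ) (E : ℕ → Set (ℝ × ℝ)) (i : ℕ) :
    MeasurableSet {z | Good τ n E i z} := by
  have h : {z | Good τ n E i z} =
      lab τ i ⁻¹' {q | ∀ j, i < j → j < n → ∀ w, lab τ i w = q → w ∉ E j} := by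
    ext z
    rfl
  rw [h]
  exact (measurable_lab i) (MeasurableSet.of_discrete)

theorem measurable_gen (τ : ℝ) (n : ℕ) (E : ℕ → Set (ℝ × ℝ)) : Measurable (gen τ n E) := by
  classical
  exact measurable_find (exists_good τ n E) (measurableSet_good τ n E)

theorem measurableSet_rel (τ : ℝ) (n : ℕ) (E : ℕ → Set (ℝ × ℝ)) :
    MeasurableSet {p : (ℝ × ℝ) × (ℝ × ℝ) | p.2 ∈ box τ (gen τ n E p.1) p.1} := by
  have h : {p : (ℝ × ℝ) × (ℝ × ℝ) | p.2 ∈ box τ (gen τ n E p.1) p.1} =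
      ⋃ i : ℕ, {p | gen τ n E p.1 = i} ∩ {p | lab τ i p.2 = lab τ i p.1} := by
    ext p
    simp only [mem_ofPred_eq, mem_iUnion, mem_inter_iff, mem_box]
    constructor
    · intro h
      exact ⟨_, rfl, h⟩
    · rintro ⟨i, h1, h2⟩
      rw [h1]
      exact h2
  rw [h]
  refine MeasurableSet.iUnion fun i => MeasurableSet.inter ?_ ?_
  · exact ((measurable_gen τ n E).comp measurable_fst) (measurableSet_singleton i)
  · exact measurableSet_eq_fun ((measurable_lab i).comp measurable_snd)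
      ((measurable_lab i).comp measurable_fst)

/-! ## density -/

/-- density of the tree `E` (slope `0`): near every point of `E j₁`, in every box of generation
`i ≤ j₁` -/
def Den (τ : ℝ) (n : ℕ) (E : ℕ → Set (ℝ × ℝ)) (u : ℝ × ℝ → ℝ) (A : ℝ) (δ : ℝ≥0∞) : Prop :=
  ∀ j₁ < n, ∀ z₁ ∈ E j₁, ∀ i ≤ j₁,
    volume {z : ℝ × ℝ | z ∈ T.Un E n ∧ T.q τ i z.1 = T.q τ i z₁.1 ∧ |z.2 - z₁.2| ≤ 1 ∧
      |u z| ≤ 2 * A * 2 ^ i} ≤ δ * ENNReal.ofReal (1 / 2 ^ i)

theorem measurableSet_Un {n : ℕ} {E : ℕ → Set (ℝ × ℝ)} (hE : ∀ j, MeasurableSet (E j)) :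
    MeasurableSet (T.Un E n) := by
  have : T.Un E n = ⋃ j ∈ Finset.range n, E j := by
    ext z
    simp [T.Un]
  rw [this]
  exact Finset.measurableSet_biUnion _ fun j _ => hE j

theorem Un_box_le {n : ℕ} {E : ℕ → Set (ℝ × ℝ)} {u : ℝ × ℝ → ℝ} {A : ℝ} {δ : ℝ≥0∞}
    (hA : 0 ≤ A) (ha : ∀ j < n, ∀ z ∈ E j, |u z| ≤ A * 2 ^ j)
    (hd : Den τ n E u A δ) (w : ℝ × ℝ) :
    volume (T.Un E n ∩ box τ (gen τ n E w) w) ≤
      2 * δ * ENNReal.ofReal (1 / 2 ^ gen τ n E w) := by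
  rcases Nat.eq_zero_or_pos (gen τ n E w) with h0 | h0
  · -- top boxes
    by_cases hemp : (T.Un E n ∩ box τ (gen τ n E w) w).Nonempty
    · obtain ⟨z₀, ⟨j, hj, hz⟩, hb⟩ := hemp
      have hg := gen_good τ n E w
      have hd' := hd j hj z₀ hz 0 (Nat.zero_le _)
      have hsub : T.Un E n ∩ box τ (gen τ n E w) w ⊆
          {z : ℝ × ℝ | z ∈ T.Un E n ∧ T.q τ 0 z.1 = T.q τ 0 z₀.1 ∧ |z.2 - z₀.2| ≤ 1 ∧
            |u z| ≤ 2 * A * 2 ^ 0} := by
        rintro z ⟨⟨k, hk, hzk⟩, hzb⟩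
        have hk0 : k ≤ gen τ n E w := by
          by_contra h
          push Not at h
          exact hg k h hk z hzb hzk
        have hzz : z ∈ box τ (gen τ n E w) z₀ := by rw [box_eq hb]; exact hzb
        refine ⟨⟨k, hk, hzk⟩, ?_, abs_snd_of_mem hzz, ?_⟩
        · rw [h0] at hzz
          exact (Prod.ext_iff.1 (mem_box.1 hzz)).1
        · have h1 := ha k hk z hzk
          have h2 : k = 0 := by omega
          rw [h2] at h1
          nlinarith
      refine (measure_mono hsub).trans (hd'.trans ?_)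
      rw [h0]
      gcongr
      calc δ = 1 * δ := (one_mul _).symm
        _ ≤ 2 * δ := by gcongr; norm_num
    · rw [Set.not_nonempty_iff_eq_empty] at hemp
      rw [hemp, measure_empty]
      exact zero_le
  · -- the parent box is not good
    obtain ⟨i, hi⟩ : ∃ i, gen τ n E w = i + 1 := ⟨gen τ n E w - 1, by omega⟩
    have hng : ¬ Good τ n E i w := gen_min (by omega)
    unfold Good at hng
    push Not at hng
    obtain ⟨j₀, hij, hjn, z₀, hzb, hz₀⟩ := hng
    have hd' := hd j₀ hjn z₀ hz₀ i hij.le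
    have hg := gen_good τ n E w
    have hsub : T.Un E n ∩ box τ (gen τ n E w) w ⊆
        {z : ℝ × ℝ | z ∈ T.Un E n ∧ T.q τ i z.1 = T.q τ i z₀.1 ∧ |z.2 - z₀.2| ≤ 1 ∧
          |u z| ≤ 2 * A * 2 ^ i} := by
      rintro z ⟨⟨k, hk, hzk⟩, hzb'⟩
      have hk0 : k ≤ i + 1 := by
        by_contra h
        push Not at h
        exact hg k (by omega) hk z hzb' hzk
      have hz1 : z ∈ box τ i w := box_mono (by omega) w hzb'
      have hzz : z ∈ box τ i z₀ := by rw [box_eq hzb]; exact hz1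
      refine ⟨⟨k, hk, hzk⟩, (Prod.ext_iff.1 (mem_box.1 hzz)).1, abs_snd_of_mem hzz, ?_⟩
      have h1 := ha k hk z hzk
      have h2 : (2 : ℝ) ^ k ≤ 2 ^ (i + 1) := pow_le_pow_right₀ (by norm_num) hk0
      have h3 : (0 : ℝ) < 2 ^ i := by positivity
      rw [pow_succ] at h2
      nlinarith
    refine (measure_mono hsub).trans (hd'.trans (le_of_eq ?_))
    rw [hi]
    have h4 : ENNReal.ofReal (1 / 2 ^ i) = 2 * ENNReal.ofReal (1 / 2 ^ (i + 1)) := by
      rw [show (2 : ℝ≥0∞) = ENNReal.ofReal 2 by norm_num, ← ENNReal.ofReal_mul (by norm_num)]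
      congr 1
      rw [pow_succ]
      field_simp
    rw [h4]
    ring

/-- **The density gain.**  If `Φ z ≤ G w` for all `w` in the maximal good box of `z`, then
`∫_E Φ ≤ 2 δ ∫ G`. -/
theorem tree_box {n : ℕ} {E : ℕ → Set (ℝ × ℝ)} (hE : ∀ j, MeasurableSet (E j)) {u : ℝ × ℝ → ℝ}
    {A : ℝ} {δ : ℝ≥0∞} (hA : 0 ≤ A)
    (ha : ∀ j < n, ∀ z ∈ E j, |u z| ≤ A * 2 ^ j) (hd : Den τ n E u A δ)
    {Φ G : ℝ × ℝ → ℝ≥0∞} (hG : Measurable G)
    (h : ∀ z ∈ T.Un E n, ∀ w ∈ box τ (gen τ n E z) z, Φ z ≤ G w) :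
    ∫⁻ z in T.Un E n, Φ z ≤ 2 * δ * ∫⁻ z, G z := by
  have hT := measurableSet_Un (n := n) hE
  have hR := measurableSet_rel τ n E
  -- the weight
  set q : ℝ × ℝ → ℝ≥0∞ := fun z => ENNReal.ofReal (2 ^ gen τ n E z) with hq
  have hqm : Measurable q := by
    have h0 : Measurable fun k : ℕ => ENNReal.ofReal ((2 : ℝ) ^ k) := measurable_of_countable _
    exact h0.comp (measurable_gen τ n E)
  have hq1 : ∀ z, q z * ENNReal.ofReal (1 / 2 ^ gen τ n E z) = 1 := by
    intro z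
    rw [hq, ← ENNReal.ofReal_mul (by positivity), mul_one_div_cancel (by positivity),
      ENNReal.ofReal_one]
  set R : Set ((ℝ × ℝ) × (ℝ × ℝ)) := {p | p.2 ∈ box τ (gen τ n E p.1) p.1} with hRdef
  -- averaging
  have h1 : ∫⁻ z in T.Un E n, Φ z ≤
      ∫⁻ z in T.Un E n, ∫⁻ w, q z * R.indicator (fun p => G p.2) (z, w) := by
    refine setLIntegral_mono' hT fun z hz => ?_
    have h2 : ∫⁻ w, q z * R.indicator (fun p => G p.2) (z, w) =
        q z * ∫⁻ w in box τ (gen τ n E z) z, G w := by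
      rw [lintegral_const_mul]
      · congr 1
        rw [← lintegral_indicator (measurableSet_box _ _)]
        rfl
      · exact ((hG.comp measurable_snd).indicator hR).comp measurable_prodMk_left
    rw [h2]
    calc Φ z = q z * (Φ z * volume (box τ (gen τ n E z) z)) := by
          rw [volume_box, mul_comm (Φ z), ← mul_assoc, hq1, one_mul]
      _ = q z * ∫⁻ _ in box τ (gen τ n E z) z, Φ z := by rw [setLIntegral_const]
      _ ≤ q z * ∫⁻ w in box τ (gen τ n E z) z, G w := by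
          gcongr 1
          exact setLIntegral_mono' (measurableSet_box _ _) fun w hw => h z hz w hw
  refine h1.trans ?_
  rw [← lintegral_indicator hT]
  have hmeas : Measurable fun p : (ℝ × ℝ) × (ℝ × ℝ) =>
      (T.Un E n).indicator (fun _ => (1 : ℝ≥0∞)) p.1 *
        (q p.1 * R.indicator (fun p => G p.2) p) := by
    refine Measurable.mul ?_ (Measurable.mul (hqm.comp measurable_fst)
      ((hG.comp measurable_snd).indicator hR))
    exact (measurable_const.indicator hT).comp measurable_fst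
  have h3 : ∫⁻ z, (T.Un E n).indicator
      (fun z => ∫⁻ w, q z * R.indicator (fun p => G p.2) (z, w)) z =
      ∫⁻ z, ∫⁻ w, (T.Un E n).indicator (fun _ => (1 : ℝ≥0∞)) z *
        (q z * R.indicator (fun p => G p.2) (z, w)) := by
    refine lintegral_congr fun z => ?_
    by_cases hz : z ∈ T.Un E n
    · simp [hz]
    · simp [hz]
  rw [h3, lintegral_lintegral_swap hmeas.aemeasurable, ← lintegral_const_mul _ hG]
  refine lintegral_mono fun w => ?_
  -- the inner integral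
  have h4 : ∀ z, (T.Un E n).indicator (fun _ => (1 : ℝ≥0∞)) z *
      (q z * R.indicator (fun p => G p.2) (z, w)) =
      q w * G w * (T.Un E n ∩ box τ (gen τ n E w) w).indicator (fun _ => (1 : ℝ≥0∞)) z := by
    intro z
    by_cases hz : z ∈ T.Un E n
    · by_cases hzw : w ∈ box τ (gen τ n E z) z
      · have h5 : (z, w) ∈ R := hzw
        have h6 : z ∈ box τ (gen τ n E w) w := rel_symm hzw
        have h7 : q z = q w := by
          simp only [hq]
          rw [gen_congr hzw]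
        have h8 : z ∈ T.Un E n ∩ box τ (gen τ n E w) w := ⟨hz, h6⟩
        rw [indicator_of_mem hz, indicator_of_mem h5, indicator_of_mem h8, h7, one_mul, mul_one]
      · have h5 : (z, w) ∉ R := hzw
        have h6 : z ∉ T.Un E n ∩ box τ (gen τ n E w) w := fun h7 => hzw (rel_symm h7.2)
        rw [indicator_of_notMem h5, indicator_of_notMem h6]
        simp
    · have h6 : z ∉ T.Un E n ∩ box τ (gen τ n E w) w := fun h7 => hz h7.1
      rw [indicator_of_notMem hz, indicator_of_notMem h6]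
      simp
  have h5 : ∫⁻ z, (T.Un E n).indicator (fun _ => (1 : ℝ≥0∞)) z *
      (q z * R.indicator (fun p => G p.2) (z, w)) =
      q w * G w * volume (T.Un E n ∩ box τ (gen τ n E w) w) := by
    rw [lintegral_congr h4, lintegral_const_mul, lintegral_indicator (hT.inter
      (measurableSet_box _ _)), setLIntegral_one]
    exact measurable_const.indicator (hT.inter (measurableSet_box _ _))
  calc _ = q w * G w * volume (T.Un E n ∩ box τ (gen τ n E w) w) := h5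
    _ ≤ q w * G w * (2 * δ * ENNReal.ofReal (1 / 2 ^ gen τ n E w)) := by
        gcongr
        exact Un_box_le hA ha hd w
    _ = (q w * ENNReal.ofReal (1 / 2 ^ gen τ n E w)) * (2 * δ * G w) := by ring
    _ = 2 * δ * G w := by rw [hq1, one_mul]

end Vale.Agent.P112.TreeT2
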