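import Vale.Agent.P112.H967.Dir
import Vale.Agent.P112.H724.Box

/-!
# P112, chapter (T), single tree: one-variable estimates

`Kj K j t = 2^j K (2^j t)`, `cj K φ j x = ∫ Kj K j (x - ξ) φ ξ dξ`.
-/

open MeasureTheory Set Filter Metric
open scoped ENNReal NNReal
open Vale.Agent.P112.HL

namespace Vale.Agent.P112.TreeT2

/-- `K` is Lipschitz with constant `L` and vanishes outside `(-1, 1)` -/
structure LK (L : ℝ) (K : ℝ → ℝ) : Prop where
  lip : ∀ s t, |K s - K t| ≤ L * |s - t|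
  zero : ∀ t, 1 ≤ |t| → K t = 0

theorem LK.nonneg {L : ℝ} {K : ℝ → ℝ} (h : LK L K) : 0 ≤ L := by
  have h1 := h.lip 1 0
  rw [sub_zero, abs_one, mul_one] at h1
  exact (abs_nonneg _).trans h1

theorem LK.bd {L : ℝ} {K : ℝ → ℝ} (h : LK L K) (t : ℝ) : |K t| ≤ L := by
  have hL := h.nonneg
  rcases le_total 1 |t| with h1 | h1
  · rw [h.zero t h1, abs_zero]
    exact hL
  · rcases le_total 0 t with h2 | h2
    · have h3 := h.lip t 1
      rw [h.zero 1 (by simp), sub_zero] at h3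
      refine h3.trans ?_
      have h4 : |t - 1| ≤ 1 := by
        rw [abs_of_nonneg h2] at h1
        rw [abs_le]; constructor <;> linarith
      nlinarith
    · have h3 := h.lip t (-1)
      rw [h.zero (-1) (by simp), sub_zero] at h3
      refine h3.trans ?_
      have h4 : |t - (-1)| ≤ 1 := by
        rw [abs_of_nonpos h2] at h1
        rw [abs_le]; constructor <;> linarith
      nlinarith

theorem LK.cont {L : ℝ} {K : ℝ → ℝ} (h : LK L K) : Continuous K := by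
  have h1 : LipschitzWith ⟨L, h.nonneg⟩ K := by
    refine LipschitzWith.of_dist_le_mul fun s t => ?_
    rw [Real.dist_eq, Real.dist_eq]
    exact h.lip s t
  exact h1.continuous

/-- the dilated kernel -/
noncomputable def Kj (K : ℝ → ℝ) (j : ℕ) (t : ℝ) : ℝ := 2 ^ j * K (2 ^ j * t)

theorem Kj_bd {L : ℝ} {K : ℝ → ℝ} (h : LK L K) (j : ℕ) (t : ℝ) : |Kj K j t| ≤ L * 2 ^ j := by
  rw [Kj, abs_mul, abs_of_pos (by positivity), mul_comm]
  gcongr
  exact h.bd _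

theorem Kj_zero {L : ℝ} {K : ℝ → ℝ} (h : LK L K) {j : ℕ} {t : ℝ} (ht : 1 / 2 ^ j ≤ |t|) :
    Kj K j t = 0 := by
  rw [Kj, h.zero, mul_zero]
  rw [abs_mul, abs_of_pos (by positivity), ← div_le_iff₀' (by positivity)]
  exact ht

theorem Kj_lip {L : ℝ} {K : ℝ → ℝ} (h : LK L K) (j : ℕ) (s t : ℝ) :
    |Kj K j s - Kj K j t| ≤ L * 4 ^ j * |s - t| := by
  rw [Kj, Kj, ← mul_sub, abs_mul, abs_of_pos (by positivity)]
  have h1 := h.lip (2 ^ j * s) (2 ^ j * t)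
  rw [← mul_sub, abs_mul, abs_of_pos (by positivity : (0 : ℝ) < 2 ^ j)] at h1
  calc (2 : ℝ) ^ j * |K (2 ^ j * s) - K (2 ^ j * t)| ≤ 2 ^ j * (L * (2 ^ j * |s - t|)) := by gcongr
    _ = L * 4 ^ j * |s - t| := by
        rw [show (4 : ℝ) = 2 * 2 by norm_num, mul_pow]
        ring

theorem Kj_cont {L : ℝ} {K : ℝ → ℝ} (h : LK L K) (j : ℕ) : Continuous (Kj K j) := by
  unfold Kj
  have := h.cont
  fun_prop

/-- the convolution with `Kj K j` -/
noncomputable def cj (K : ℝ → ℝ) (φ : ℝ → ℝ) (j : ℕ) (x : ℝ) : ℝ := ∫ ξ, Kj K j (x - ξ) * φ ξ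

theorem integrable_cj {L : ℝ} {K : ℝ → ℝ} (h : LK L K) {φ : ℝ → ℝ} (hφ : Measurable φ) {M : ℝ}
    (hM : ∀ t, |φ t| ≤ M) (j : ℕ) (x : ℝ) : Integrable fun ξ => Kj K j (x - ξ) * φ ξ := by
  have h1 : Integrable fun ξ => Kj K j (x - ξ) := by
    refine Continuous.integrable_of_hasCompactSupport ((Kj_cont h j).comp (by fun_prop)) ?_
    refine HasCompactSupport.of_support_subset_isCompact (isCompact_closedBall x (1 / 2 ^ j)) ?_
    intro ξ hξ
    rw [mem_closedBall, dist_comm, Real.dist_eq]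
    by_contra h2
    push Not at h2
    exact hξ (Kj_zero h h2.le)
  exact h1.mul_bdd (c := M) hφ.aestronglyMeasurable (Eventually.of_forall fun t => by
    rw [Real.norm_eq_abs]; exact hM t)

/-- local constancy of one piece -/
theorem cj_diff {L : ℝ} {K : ℝ → ℝ} (h : LK L K) {φ : ℝ → ℝ} (hφ : Measurable φ) {M : ℝ}
    (hM : ∀ t, |φ t| ≤ M) {i j : ℕ} (hij : j ≤ i) {x x' : ℝ} (hx : |x - x'| ≤ 1 / 2 ^ i) :
    ‖cj K φ j x - cj K φ j x'‖ₑ ≤
      ENNReal.ofReal (4 * L * (2 ^ j / 2 ^ i)) * MF (fun t => ‖φ t‖ₑ) x' := by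
  have hL := h.nonneg
  have hj : (0 : ℝ) < 2 ^ j := by positivity
  have hi : (0 : ℝ) < 2 ^ i := by positivity
  have hji : (1 : ℝ) / 2 ^ i ≤ 1 / 2 ^ j :=
    one_div_le_one_div_of_le hj (pow_le_pow_right₀ (by norm_num) hij)
  rw [cj, cj, ← integral_sub (integrable_cj h hφ hM j x) (integrable_cj h hφ hM j x')]
  refine (enorm_integral_le_lintegral_enorm _).trans ?_
  have h1 : ∀ ξ, ‖Kj K j (x - ξ) * φ ξ - Kj K j (x' - ξ) * φ ξ‖ₑ ≤
      (ball x' (2 / 2 ^ j)).indicator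
        (fun ξ => ENNReal.ofReal (L * 4 ^ j * (1 / 2 ^ i)) * ‖φ ξ‖ₑ) ξ := by
    intro ξ
    rw [← sub_mul, enorm_mul]
    by_cases hξ : ξ ∈ ball x' (2 / 2 ^ j)
    · rw [indicator_of_mem hξ]
      gcongr
      rw [← ofReal_norm, Real.norm_eq_abs]
      refine ENNReal.ofReal_le_ofReal ((Kj_lip h j _ _).trans ?_)
      rw [show x - ξ - (x' - ξ) = x - x' by ring]
      gcongr
    · rw [indicator_of_notMem hξ]
      rw [mem_ball, not_lt, dist_comm, Real.dist_eq] at hξ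
      have h2 : (2 : ℝ) / 2 ^ j = 1 / 2 ^ j + 1 / 2 ^ j := by ring
      have h5 : (0 : ℝ) < 1 / 2 ^ j := by positivity
      have h3 : 1 / 2 ^ j ≤ |x' - ξ| := by linarith
      have h4 : 1 / 2 ^ j ≤ |x - ξ| := by
        have := abs_sub_abs_le_abs_sub (x' - ξ) (x' - x)
        rw [show x' - ξ - (x' - x) = x - ξ by ring, abs_sub_comm x' x] at this
        linarith
      rw [Kj_zero h h3, Kj_zero h h4]
      simp
  refine (lintegral_mono h1).trans ?_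
  rw [lintegral_indicator measurableSet_ball, lintegral_const_mul' _ _ ENNReal.ofReal_ne_top]
  have h2 := avg_le_MF (fun t => ‖φ t‖ₑ) (mem_ball_self (x := x') (show (0 : ℝ) < 2 / 2 ^ j by
    positivity))
  have h3 : ENNReal.ofReal (2 * (2 / 2 ^ j)) ≠ 0 := by
    rw [Ne, ENNReal.ofReal_eq_zero, not_le]; positivity
  rw [ENNReal.div_le_iff h3 ENNReal.ofReal_ne_top] at h2
  calc ENNReal.ofReal (L * 4 ^ j * (1 / 2 ^ i)) * ∫⁻ a in ball x' (2 / 2 ^ j), ‖φ a‖ₑ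
      ≤ ENNReal.ofReal (L * 4 ^ j * (1 / 2 ^ i)) *
        (MF (fun t => ‖φ t‖ₑ) x' * ENNReal.ofReal (2 * (2 / 2 ^ j))) := by gcongr
    _ = (ENNReal.ofReal (L * 4 ^ j * (1 / 2 ^ i)) * ENNReal.ofReal (2 * (2 / 2 ^ j))) *
        MF (fun t => ‖φ t‖ₑ) x' := by ring
    _ = _ := by
        rw [← ENNReal.ofReal_mul (by positivity)]
        congr 2
        rw [show (4 : ℝ) ^ j = 2 ^ j * 2 ^ j by rw [← mul_pow]; norm_num]
        field_simp
        norm_num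

theorem geom_up {a b i : ℕ} (hb : b ≤ i + 1) :
    ∑ j ∈ Finset.Ico a b, (2 : ℝ) ^ j / 2 ^ i ≤ 2 := by
  have h1 : ∑ j ∈ Finset.Ico a b, (2 : ℝ) ^ j / 2 ^ i ≤
      ∑ j ∈ Finset.range (i + 1), (2 : ℝ) ^ j / 2 ^ i := by
    refine Finset.sum_le_sum_of_subset_of_nonneg ?_ fun j _ _ => by positivity
    intro j hj
    rw [Finset.mem_Ico] at hj
    rw [Finset.mem_range]
    omega
  refine h1.trans ?_
  rw [← Finset.sum_div, geom_sum_eq (by norm_num), div_le_iff₀ (by positivity), pow_succ]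
  have : (0 : ℝ) < 2 ^ i := by positivity
  linarith

theorem geom_down {a b : ℕ} : ∑ j ∈ Finset.Ico a b, (1 : ℝ) / 2 ^ j ≤ 2 / 2 ^ a := by
  rcases le_total b a with h | h
  · rw [Finset.Ico_eq_empty_of_le h, Finset.sum_empty]
    positivity
  · have h2 : ∀ b, a ≤ b → ∑ j ∈ Finset.Ico a b, (1 : ℝ) / 2 ^ j = 2 / 2 ^ a - 2 / 2 ^ b := by
      intro b hb
      induction b, hb using Nat.le_induction with
      | base => simp
      | succ b hb ih =>
        rw [Finset.sum_Ico_succ_top hb, ih, pow_succ]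
        field_simp
        ring
    rw [h2 b h]
    have : (0 : ℝ) < 2 / 2 ^ b := by positivity
    linarith

/-- the maximal truncated sum -/
noncomputable def Hs (K : ℝ → ℝ) (n : ℕ) (φ : ℝ → ℝ) (x : ℝ) : ℝ≥0∞ :=
  ⨆ a : ℕ, ⨆ b : ℕ, ⨆ _ : b ≤ n, ‖∑ j ∈ Finset.Ico a b, cj K φ j x‖ₑ

theorem le_Hs (K : ℝ → ℝ) {n : ℕ} (φ : ℝ → ℝ) (x : ℝ) {a b : ℕ} (hb : b ≤ n) :
    ‖∑ j ∈ Finset.Ico a b, cj K φ j x‖ₑ ≤ Hs K n φ x :=
  le_iSup_of_le a (le_iSup_of_le b (le_iSup_of_le hb le_rfl))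

/-- truncated sums are locally bounded by the maximal functions -/
theorem sum_cj_le {L : ℝ} {K : ℝ → ℝ} (h : LK L K) {φ : ℝ → ℝ} (hφ : Measurable φ) {M : ℝ}
    (hM : ∀ t, |φ t| ≤ M) {a b i n : ℕ} (hb : b ≤ i + 1) (hbn : b ≤ n) {x x' : ℝ}
    (hx : |x - x'| ≤ 1 / 2 ^ i) :
    ‖∑ j ∈ Finset.Ico a b, cj K φ j x‖ₑ ≤
      Hs K n φ x' + ENNReal.ofReal (8 * L) * MF (fun t => ‖φ t‖ₑ) x' := by
  have hL := h.nonneg
  have h1 : ∑ j ∈ Finset.Ico a b, cj K φ j x =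
      ∑ j ∈ Finset.Ico a b, cj K φ j x' + ∑ j ∈ Finset.Ico a b, (cj K φ j x - cj K φ j x') := by
    rw [← Finset.sum_add_distrib]
    exact Finset.sum_congr rfl fun j _ => by ring
  rw [h1]
  refine (enorm_add_le _ _).trans (add_le_add (le_Hs K φ x' hbn) ?_)
  refine (enorm_sum_le _ _).trans ?_
  calc ∑ j ∈ Finset.Ico a b, ‖cj K φ j x - cj K φ j x'‖ₑ
      ≤ ∑ j ∈ Finset.Ico a b,
        ENNReal.ofReal (4 * L * (2 ^ j / 2 ^ i)) * MF (fun t => ‖φ t‖ₑ) x' := by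
        refine Finset.sum_le_sum fun j hj => ?_
        rw [Finset.mem_Ico] at hj
        exact cj_diff h hφ hM (by omega) hx
    _ = ENNReal.ofReal (∑ j ∈ Finset.Ico a b, 4 * L * (2 ^ j / 2 ^ i)) *
        MF (fun t => ‖φ t‖ₑ) x' := by
        rw [← Finset.sum_mul, ENNReal.ofReal_sum_of_nonneg fun j _ => by positivity]
    _ ≤ ENNReal.ofReal (8 * L) * MF (fun t => ‖φ t‖ₑ) x' := by
        gcongr
        rw [← Finset.mul_sum]
        have := geom_up (a := a) hb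
        nlinarith

end Vale.Agent.P112.TreeT2
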