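import Vale.Agent.P112.H724.Tree

/-!
# P112, chapter (T), single tree: the operator form, slope `0`
-/

open MeasureTheory Set Filter Metric
open scoped ENNReal NNReal
open Vale.Agent.P112.HL

namespace Vale.Agent.P112.TreeT2

/-- the maximal theorem for the truncated sums, uniform over the kernels with Lipschitz constant `L` -/
def MaxH (p L : ℝ) (C₁ : ℝ≥0∞) : Prop :=
  ∀ K : ℝ → ℝ, LK L K → (∀ t, K (-t) = -K t) → ∀ (n : ℕ) (φ : ℝ → ℝ), Measurable φ →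
    (∃ M, ∀ t, |φ t| ≤ M) → (∃ r, ∀ t, r ≤ |t| → φ t = 0) →
    ∫⁻ x, Hs K n φ x ^ p ≤ C₁ * ∫⁻ x, ‖φ x‖ₑ ^ p

/-- the majorant on the lines -/
noncomputable def hh (K : ℝ → ℝ) (n : ℕ) (f : ℝ × ℝ → ℝ) (w : ℝ × ℝ) : ℝ≥0∞ :=
  Hs K n (sl f w.2) w.1 + MF (fun t => ‖sl f w.2 t‖ₑ) w.1

theorem measurable_cj {L : ℝ} {K : ℝ → ℝ} (hK : LK L K) {f : ℝ × ℝ → ℝ} (hf : Measurable f)
    (j : ℕ) : Measurable fun w : ℝ × ℝ => cj K (sl f w.2) j w.1 := by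
  have h1 : Measurable fun q : (ℝ × ℝ) × ℝ => Kj K j (q.1.1 - q.2) * f (q.2, q.1.2) := by
    refine Measurable.mul ?_ ?_
    · exact (Kj_cont hK j).measurable.comp (by fun_prop)
    · exact hf.comp (by fun_prop)
  exact (h1.stronglyMeasurable.integral_prod_right').measurable

theorem measurable_Hs {L : ℝ} {K : ℝ → ℝ} (hK : LK L K) {f : ℝ × ℝ → ℝ} (hf : Measurable f)
    (n : ℕ) : Measurable fun w : ℝ × ℝ => Hs K n (sl f w.2) w.1 := by
  unfold Hs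
  refine Measurable.iSup fun a => Measurable.iSup fun b => Measurable.iSup_Prop _ ?_
  exact (Finset.measurable_sum _ fun j _ => measurable_cj hK hf j).enorm

theorem measurable_MFsl {f : ℝ × ℝ → ℝ} (hf : Measurable f) :
    Measurable fun w : ℝ × ℝ => MF (fun t => ‖sl f w.2 t‖ₑ) w.1 := by
  have h := measurable_MF_param (α := ℝ) (G := fun γ t => ‖f (t, γ)‖ₑ)
    ((hf.comp (by fun_prop)).enorm)
  exact h.comp (f := fun w : ℝ × ℝ => (w.2, w.1)) (by fun_prop)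

theorem measurable_hh {L : ℝ} {K : ℝ → ℝ} (hK : LK L K) {f : ℝ × ℝ → ℝ} (hf : Measurable f)
    (n : ℕ) : Measurable (hh K n f) :=
  (measurable_Hs hK hf n).add (measurable_MFsl hf)

theorem lintegral_iter_symm {f : ℝ × ℝ → ℝ≥0∞} (hf : Measurable f) :
    ∫⁻ z, f z = ∫⁻ y : ℝ, ∫⁻ x : ℝ, f (x, y) := by
  rw [Measure.volume_eq_prod, lintegral_prod_symm _ hf.aemeasurable]

/-- the `L^p` bound of the majorant -/
theorem lintegral_hh {p L : ℝ} (hp : 1 < p) {C₁ : ℝ≥0∞} (hmax : MaxH p L C₁)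
    {K : ℝ → ℝ} (hK : LK L K) (hodd : ∀ t, K (-t) = -K t) {f : ℝ × ℝ → ℝ} (hf : Measurable f)
    {M r : ℝ} (hM : ∀ z, |f z| ≤ M) (hr : ∀ z : ℝ × ℝ, r ≤ |z.1| → f z = 0) (n : ℕ) :
    ∫⁻ w, hh K n f w ^ p ≤ 2 ^ (p - 1) * (C₁ + CM p) * ∫⁻ z, ‖f z‖ₑ ^ p := by
  have hp0 : 0 ≤ p := by linarith
  have hH := measurable_Hs hK hf n
  have hMF := measurable_MFsl hf
  have h1 : ∫⁻ w, hh K n f w ^ p ≤ ∫⁻ w : ℝ × ℝ, 2 ^ (p - 1) *
      (Hs K n (sl f w.2) w.1 ^ p + MF (fun t => ‖sl f w.2 t‖ₑ) w.1 ^ p) :=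
    lintegral_mono fun w => ENNReal.rpow_add_le_mul_rpow_add_rpow _ _ hp.le
  refine h1.trans ?_
  have h2 : (2 : ℝ≥0∞) ^ (p - 1) ≠ ∞ := ENNReal.rpow_ne_top_of_nonneg (by linarith) (by simp)
  rw [lintegral_const_mul' _ _ h2, lintegral_add_left (hH.pow_const p), mul_assoc]
  gcongr 1
  rw [add_mul, lintegral_iter_symm (hH.pow_const p), lintegral_iter_symm (hMF.pow_const p),
    lintegral_iter_symm (hf.enorm.pow_const p)]
  have h5 : Measurable fun y : ℝ => ∫⁻ x : ℝ, ‖f (x, y)‖ₑ ^ p := by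
    exact Measurable.lintegral_prod_left' (μ := (volume : Measure ℝ)) (hf.enorm.pow_const p)
  have h3 : ∀ γ : ℝ, ∫⁻ x, Hs K n (sl f γ) x ^ p ≤ C₁ * ∫⁻ x, ‖f (x, γ)‖ₑ ^ p := by
    intro γ
    exact hmax K hK hodd n (sl f γ) (hf.comp measurable_prodMk_right)
      ⟨M, fun t => hM (t, γ)⟩ ⟨r, fun t ht => hr (t, γ) ht⟩
  have h4 : ∀ γ : ℝ, ∫⁻ x, MF (fun t => ‖sl f γ t‖ₑ) x ^ p ≤ CM p * ∫⁻ x, ‖f (x, γ)‖ₑ ^ p := by
    intro γ
    exact strong_MF' hp (f := fun t => ‖sl f γ t‖ₑ) (hf.comp measurable_prodMk_right).enorm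
  refine add_le_add ?_ ?_
  · rw [← lintegral_const_mul _ h5]
    exact lintegral_mono fun γ => h3 γ
  · rw [← lintegral_const_mul _ h5]
    exact lintegral_mono fun γ => h4 γ

/-- the scales of the tree at a point form an interval -/
theorem exists_Ico {n : ℕ} {E : ℕ → Set (ℝ × ℝ)}
    (hc : ∀ z, ∀ i j k : ℕ, i ≤ j → j ≤ k → k < n → z ∈ E i → z ∈ E k → z ∈ E j) {z : ℝ × ℝ}
    (hz : z ∈ T.Un E n) :
    ∃ a b : ℕ, b ≤ n ∧ (∃ c, c < n ∧ z ∈ E c ∧ b = c + 1) ∧ z ∈ E a ∧ a < n ∧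
      ∀ F : ℕ → ℝ × ℝ → ℝ, ∑ j ∈ Finset.range n, (E j).indicator (F j) z =
        ∑ j ∈ Finset.Ico a b, F j z := by
  classical
  set S := (Finset.range n).filter fun j => z ∈ E j with hS
  have hne : S.Nonempty := by
    obtain ⟨j, hj, hzj⟩ := hz
    exact ⟨j, by rw [hS, Finset.mem_filter, Finset.mem_range]; exact ⟨hj, hzj⟩⟩
  have h1 : S.min' hne ∈ S := S.min'_mem hne
  have h2 : S.max' hne ∈ S := S.max'_mem hne
  have h1' := Finset.mem_filter.1 h1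
  have h2' := Finset.mem_filter.1 h2
  rw [Finset.mem_range] at h1' h2'
  refine ⟨S.min' hne, S.max' hne + 1, h2'.1, ⟨_, h2'.1, h2'.2, rfl⟩, h1'.2, h1'.1, fun F => ?_⟩
  have h3 : S = Finset.Ico (S.min' hne) (S.max' hne + 1) := by
    ext j
    rw [Finset.mem_Ico]
    constructor
    · intro hj
      exact ⟨S.min'_le j hj, Nat.lt_succ_of_le (S.le_max' j hj)⟩
    · rintro ⟨h4, h5⟩
      rw [hS, Finset.mem_filter, Finset.mem_range]
      exact ⟨by omega, hc z _ j _ h4 (Nat.lt_succ_iff.1 h5) h2'.1 h1'.2 h2'.2⟩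
  rw [← h3, hS, Finset.sum_filter]
  refine Finset.sum_congr rfl fun j _ => ?_
  by_cases hj : z ∈ E j
  · rw [indicator_of_mem hj, if_pos hj]
  · rw [indicator_of_notMem hj, if_neg hj]

/-- **operator form, slope `0`** -/
theorem op_zero {p L : ℝ} (hp : 1 < p) {C₁ : ℝ≥0∞} (hmax : MaxH p L C₁)
    {K ψ : ℝ → ℝ} (hK : LK L K) (hodd : ∀ t, K (-t) = -K t) {L' B : ℝ} (hψ : LK L' ψ)
    (hB : ∀ t, |ψ t| ≤ B) {A D : ℝ} (hA : 0 ≤ A) (hD : L' * A ≤ D)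
    {τ : ℝ} {u : ℝ × ℝ → ℝ} {n : ℕ} {E : ℕ → Set (ℝ × ℝ)} (hE : ∀ j, MeasurableSet (E j))
    (ha : ∀ j < n, ∀ z ∈ E j, |u z| ≤ A * 2 ^ j)
    (hc : ∀ z, ∀ i j k : ℕ, i ≤ j → j ≤ k → k < n → z ∈ E i → z ∈ E k → z ∈ E j) {δ : ℝ≥0∞}
    (hd : Den τ n E u A δ) {f : ℝ × ℝ → ℝ} (hf : Measurable f)
    {M r : ℝ} (hM : ∀ z, |f z| ≤ M) (hr : ∀ z : ℝ × ℝ, r ≤ |z.1| → f z = 0) :
    ∫⁻ z in T.Un E n, ‖∑ j ∈ Finset.range n, (E j).indicator
      (fun z => Tp K ψ j (u z) f z) z‖ₑ ^ p ≤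
      2 * δ * (ENNReal.ofReal ((B * (1 + 8 * L) + 12 * D * L) * (2 * (A + 3))) ^ p *
        (CM p * (2 ^ (p - 1) * (C₁ + CM p)))) * ∫⁻ z, ‖f z‖ₑ ^ p := by
  have hp0 : 0 ≤ p := by linarith
  have hL := hK.nonneg
  have hL' := hψ.nonneg
  have hB0 : 0 ≤ B := (abs_nonneg _).trans (hB 0)
  have hD0 : 0 ≤ D := (mul_nonneg hL' hA).trans hD
  set c := ENNReal.ofReal ((B * (1 + 8 * L) + 12 * D * L) * (2 * (A + 3))) with hcdef
  have hhm := measurable_hh hK hf n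
  have hMV : Measurable (MV (hh K n f)) := measurable_MV hhm
  have hG : Measurable fun w => (c * MV (hh K n f) w) ^ p := (hMV.const_mul c).pow_const p
  have hctop : c ^ p ≠ ∞ := ENNReal.rpow_ne_top_of_nonneg hp0 ENNReal.ofReal_ne_top
  have h1 := tree_box (Φ := fun z => ‖∑ j ∈ Finset.range n, (E j).indicator
      (fun z => Tp K ψ j (u z) f z) z‖ₑ ^ p) (δ := δ) hE hA ha hd hG ?_
  · refine h1.trans ?_
    have h2 : ∫⁻ w, (c * MV (hh K n f) w) ^ p ≤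
        c ^ p * (CM p * (2 ^ (p - 1) * (C₁ + CM p) * ∫⁻ z, ‖f z‖ₑ ^ p)) := by
      have h3 : ∀ w, (c * MV (hh K n f) w) ^ p = c ^ p * MV (hh K n f) w ^ p := fun w =>
        ENNReal.mul_rpow_of_nonneg _ _ hp0
      simp only [h3]
      rw [lintegral_const_mul' _ _ hctop]
      gcongr
      refine (strong_MV hp hhm).trans ?_
      gcongr
      exact lintegral_hh hp hmax hK hodd hf hM hr n
    calc 2 * (δ : ℝ≥0∞) * ∫⁻ w, (c * MV (hh K n f) w) ^ p ≤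
        2 * δ * (c ^ p * (CM p * (2 ^ (p - 1) * (C₁ + CM p) * ∫⁻ z, ‖f z‖ₑ ^ p))) := by gcongr
      _ = _ := by ring
  · -- the pointwise bound
    intro z hz w hw
    obtain ⟨a, b, hbn, ⟨c', hc'n, hzc', hbc'⟩, hza, han, hsum⟩ := exists_Ico hc hz
    refine ENNReal.rpow_le_rpow ?_ hp0
    rw [hsum fun j z => Tp K ψ j (u z) f z]
    have hb : b ≤ gen τ n E z + 1 := by
      rw [hbc']
      exact Nat.succ_le_succ (le_gen hc'n hzc')
    have hv := ha a han z hza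
    have hvD : L' * |u z| ≤ D * 2 ^ a := by
      calc L' * |u z| ≤ L' * (A * 2 ^ a) := by gcongr
        _ = L' * A * 2 ^ a := by ring
        _ ≤ D * 2 ^ a := by gcongr
    have h4 := Tp_sum_le (a := a) hK hψ hB hf hM hb hbn hv hvD (abs_fst_of_mem hw)
      (abs_snd_of_mem hw)
    refine h4.trans ?_
    have h5 := avg_le_MF (fun γ => hh K n f (w.1, γ))
      (mem_ball_self (x := w.2) (show (0 : ℝ) < A + 3 by linarith))
    have h6 : ENNReal.ofReal (2 * (A + 3)) ≠ 0 := by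
      rw [Ne, ENNReal.ofReal_eq_zero, not_le]; linarith
    rw [ENNReal.div_le_iff h6 ENNReal.ofReal_ne_top] at h5
    calc ENNReal.ofReal (B * (1 + 8 * L) + 12 * D * L) *
        ∫⁻ γ in ball w.2 (A + 3), (Hs K n (sl f γ) w.1 + MF (fun t => ‖sl f γ t‖ₑ) w.1)
        ≤ ENNReal.ofReal (B * (1 + 8 * L) + 12 * D * L) *
          (MF (fun γ => hh K n f (w.1, γ)) w.2 * ENNReal.ofReal (2 * (A + 3))) := by
          gcongr
          exact h5
      _ = c * MV (hh K n f) w := by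
          rw [hcdef, ENNReal.ofReal_mul (p := B * (1 + 8 * L) + 12 * D * L)
            (q := 2 * (A + 3)) (by positivity), MV]
          ring

end Vale.Agent.P112.TreeT2
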