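import Vale.Agent.P112.H724.Line

/-!
# P112, chapter (T), single tree: the pointwise bound on the maximal boxes
-/

open MeasureTheory Set Filter Metric
open scoped ENNReal NNReal
open Vale.Agent.P112.HL

namespace Vale.Agent.P112.TreeT2

/-- the piece of scale `2^(-j)` at the point `z`, with slope `v` -/
noncomputable def Tp (K ψ : ℝ → ℝ) (j : ℕ) (v : ℝ) (f : ℝ × ℝ → ℝ) (z : ℝ × ℝ) : ℝ :=
  ∫ ζ : ℝ × ℝ, Kj K j (z.1 - ζ.1) * ψ (z.2 - ζ.2 - (z.1 - ζ.1) * v) * f ζ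

/-- slices -/
def sl (f : ℝ × ℝ → ℝ) (γ : ℝ) : ℝ → ℝ := fun ξ => f (ξ, γ)

theorem integrable_kernel {L L' : ℝ} {K ψ : ℝ → ℝ} (hK : LK L K) (hψ : LK L' ψ) (j : ℕ) (v : ℝ)
    (z : ℝ × ℝ) :
    Integrable fun ζ : ℝ × ℝ => Kj K j (z.1 - ζ.1) * ψ (z.2 - ζ.2 - (z.1 - ζ.1) * v) := by
  have h1 := Kj_cont hK j
  have h2 := hψ.cont
  refine Continuous.integrable_of_hasCompactSupport (by fun_prop) ?_
  refine HasCompactSupport.of_support_subset_isCompact
    ((isCompact_closedBall z.1 (1 / 2 ^ j)).prod (isCompact_closedBall z.2 (1 + |v|))) ?_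
  intro ζ hζ
  have h3 : |z.1 - ζ.1| ≤ 1 / 2 ^ j := by
    by_contra h
    push Not at h
    exact hζ (by simp only []; rw [Kj_zero hK h.le, zero_mul])
  have h4 : |z.2 - ζ.2 - (z.1 - ζ.1) * v| ≤ 1 := by
    by_contra h
    push Not at h
    exact hζ (by simp only []; rw [hψ.zero _ h.le, mul_zero])
  have h5 : |(z.1 - ζ.1) * v| ≤ |v| := by
    rw [abs_mul]
    have : (1 : ℝ) / 2 ^ j ≤ 1 := by
      rw [div_le_one (by positivity)]
      exact one_le_pow₀ (by norm_num)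
    have h6 : |z.1 - ζ.1| ≤ 1 := h3.trans this
    have := abs_nonneg v
    nlinarith
  refine ⟨?_, ?_⟩
  · rw [mem_closedBall, dist_comm, Real.dist_eq]
    exact h3
  · rw [mem_closedBall, dist_comm, Real.dist_eq]
    have h7 := abs_add_le (z.2 - ζ.2 - (z.1 - ζ.1) * v) ((z.1 - ζ.1) * v)
    rw [sub_add_cancel] at h7
    linarith

theorem integrable_Tp {L L' : ℝ} {K ψ : ℝ → ℝ} (hK : LK L K) (hψ : LK L' ψ) {f : ℝ × ℝ → ℝ}
    (hf : Measurable f) {M : ℝ} (hM : ∀ z, |f z| ≤ M) (j : ℕ) (v : ℝ) (z : ℝ × ℝ) :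
    Integrable fun ζ : ℝ × ℝ => Kj K j (z.1 - ζ.1) * ψ (z.2 - ζ.2 - (z.1 - ζ.1) * v) * f ζ :=
  (integrable_kernel hK hψ j v z).mul_bdd (c := M) hf.aestronglyMeasurable
    (Eventually.of_forall fun t => by rw [Real.norm_eq_abs]; exact hM t)

/-- the error made by replacing the slope `v` by `0` -/
theorem Tp_err {L L' : ℝ} {K ψ : ℝ → ℝ} (hK : LK L K) (hψ : LK L' ψ) {f : ℝ × ℝ → ℝ}
    (hf : Measurable f) {M : ℝ} (hM : ∀ z, |f z| ≤ M) {A : ℝ} {j : ℕ} {v : ℝ}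
    (hv : |v| ≤ A * 2 ^ j) {z w : ℝ × ℝ} (h1 : |w.1 - z.1| ≤ 1 / 2 ^ j) (h2 : |w.2 - z.2| ≤ 1) :
    ‖Tp K ψ j v f z - Tp K ψ j 0 f z‖ₑ ≤ ENNReal.ofReal (6 * L * L' * |v| * (1 / 2 ^ j)) *
      ∫⁻ γ in ball w.2 (A + 3), MF (fun t => ‖sl f γ t‖ₑ) w.1 := by
  have hL := hK.nonneg
  have hL' := hψ.nonneg
  have hj : (0 : ℝ) < 2 ^ j := by positivity
  have hA : 0 ≤ A := by
    by_contra h
    push Not at h
    have := abs_nonneg v
    nlinarith
  rw [Tp, Tp, ← integral_sub (integrable_Tp hK hψ hf hM j v z) (integrable_Tp hK hψ hf hM j 0 z)]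
  refine (enorm_integral_le_lintegral_enorm _).trans ?_
  have h3 : ∀ ζ : ℝ × ℝ, ‖Kj K j (z.1 - ζ.1) * ψ (z.2 - ζ.2 - (z.1 - ζ.1) * v) * f ζ -
      Kj K j (z.1 - ζ.1) * ψ (z.2 - ζ.2 - (z.1 - ζ.1) * 0) * f ζ‖ₑ ≤
      ((ball w.1 (3 / 2 ^ j)) ×ˢ (ball w.2 (A + 3))).indicator
        (fun ζ => ENNReal.ofReal (L * L' * |v|) * ‖f ζ‖ₑ) ζ := by
    intro ζ
    have e1 : Kj K j (z.1 - ζ.1) * ψ (z.2 - ζ.2 - (z.1 - ζ.1) * v) * f ζ -
      Kj K j (z.1 - ζ.1) * ψ (z.2 - ζ.2 - (z.1 - ζ.1) * 0) * f ζ =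
      Kj K j (z.1 - ζ.1) * (ψ (z.2 - ζ.2 - (z.1 - ζ.1) * v) -
        ψ (z.2 - ζ.2 - (z.1 - ζ.1) * 0)) * f ζ := by ring
    rw [e1]
    by_cases hx : 1 / 2 ^ j ≤ |z.1 - ζ.1|
    · rw [Kj_zero hK hx]
      simp
    push Not at hx
    have hxv : |(z.1 - ζ.1) * v| ≤ A := by
      rw [abs_mul]
      calc |z.1 - ζ.1| * |v| ≤ 1 / 2 ^ j * (A * 2 ^ j) := by gcongr
        _ = A := by field_simp
    by_cases hy : |z.2 - ζ.2| < 1 + A
    · have hmem : ζ ∈ (ball w.1 (3 / 2 ^ j)) ×ˢ (ball w.2 (A + 3)) := by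
        refine ⟨?_, ?_⟩
        · rw [mem_ball, dist_comm, Real.dist_eq]
          have h4 := abs_add_le (w.1 - z.1) (z.1 - ζ.1)
          rw [sub_add_sub_cancel] at h4
          have h5 : (3 : ℝ) / 2 ^ j = 1 / 2 ^ j + 1 / 2 ^ j + 1 / 2 ^ j := by ring
          have h6 : (0 : ℝ) < 1 / 2 ^ j := by positivity
          linarith
        · rw [mem_ball, dist_comm, Real.dist_eq]
          have h4 := abs_add_le (w.2 - z.2) (z.2 - ζ.2)
          rw [sub_add_sub_cancel] at h4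
          linarith
      rw [indicator_of_mem hmem, enorm_mul]
      gcongr
      rw [← ofReal_norm, Real.norm_eq_abs]
      refine ENNReal.ofReal_le_ofReal ?_
      rw [abs_mul]
      have h7 := hψ.lip (z.2 - ζ.2 - (z.1 - ζ.1) * v) (z.2 - ζ.2 - (z.1 - ζ.1) * 0)
      rw [show z.2 - ζ.2 - (z.1 - ζ.1) * v - (z.2 - ζ.2 - (z.1 - ζ.1) * 0) =
        -((z.1 - ζ.1) * v) by ring, abs_neg, abs_mul] at h7
      calc |Kj K j (z.1 - ζ.1)| * |ψ (z.2 - ζ.2 - (z.1 - ζ.1) * v) -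
            ψ (z.2 - ζ.2 - (z.1 - ζ.1) * 0)| ≤ (L * 2 ^ j) * (L' * (1 / 2 ^ j * |v|)) := by
            refine mul_le_mul (Kj_bd hK j _) (h7.trans ?_) (abs_nonneg _) (by positivity)
            gcongr
        _ = L * L' * |v| := by field_simp
    · push Not at hy
      rw [hψ.zero (z.2 - ζ.2 - (z.1 - ζ.1) * v), hψ.zero (z.2 - ζ.2 - (z.1 - ζ.1) * 0)]
      · simp
      · rw [mul_zero, sub_zero]
        linarith
      · have h4 := abs_sub_abs_le_abs_sub (z.2 - ζ.2) ((z.1 - ζ.1) * v)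
        linarith
  refine (lintegral_mono h3).trans ?_
  have hms : MeasurableSet ((ball w.1 (3 / 2 ^ j)) ×ˢ (ball w.2 (A + 3))) :=
    measurableSet_ball.prod measurableSet_ball
  rw [lintegral_indicator hms, lintegral_const_mul' _ _ ENNReal.ofReal_ne_top,
    Measure.volume_eq_prod, ← Measure.prod_restrict,
    lintegral_prod_symm _ (by exact hf.enorm.aemeasurable)]
  have h8 : ∀ γ, ∫⁻ x in ball w.1 (3 / 2 ^ j), ‖f (x, γ)‖ₑ ≤
      ENNReal.ofReal (6 * (1 / 2 ^ j)) * MF (fun t => ‖sl f γ t‖ₑ) w.1 := by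
    intro γ
    have h9 := avg_le_MF (fun t => ‖sl f γ t‖ₑ) (mem_ball_self (x := w.1)
      (show (0 : ℝ) < 3 / 2 ^ j by positivity))
    have h10 : ENNReal.ofReal (2 * (3 / 2 ^ j)) ≠ 0 := by
      rw [Ne, ENNReal.ofReal_eq_zero, not_le]; positivity
    rw [ENNReal.div_le_iff h10 ENNReal.ofReal_ne_top] at h9
    refine h9.trans (le_of_eq ?_)
    rw [mul_comm]
    congr 2
    ring
  calc ENNReal.ofReal (L * L' * |v|) *
      ∫⁻ γ in ball w.2 (A + 3), ∫⁻ x in ball w.1 (3 / 2 ^ j), ‖f (x, γ)‖ₑ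
      ≤ ENNReal.ofReal (L * L' * |v|) * ∫⁻ γ in ball w.2 (A + 3),
        ENNReal.ofReal (6 * (1 / 2 ^ j)) * MF (fun t => ‖sl f γ t‖ₑ) w.1 := by
        gcongr with γ
        exact h8 γ
    _ = ENNReal.ofReal (L * L' * |v|) * ENNReal.ofReal (6 * (1 / 2 ^ j)) *
        ∫⁻ γ in ball w.2 (A + 3), MF (fun t => ‖sl f γ t‖ₑ) w.1 := by
        rw [lintegral_const_mul' _ _ ENNReal.ofReal_ne_top]
        ring
    _ = _ := by
        rw [← ENNReal.ofReal_mul (by positivity)]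
        congr 2
        ring

/-- Fubini for the main term -/
theorem Tp_zero {L L' : ℝ} {K ψ : ℝ → ℝ} (hK : LK L K) (hψ : LK L' ψ) {f : ℝ × ℝ → ℝ}
    (hf : Measurable f) {M : ℝ} (hM : ∀ z, |f z| ≤ M) (s : Finset ℕ) (z : ℝ × ℝ) :
    ∑ j ∈ s, Tp K ψ j 0 f z = ∫ γ, ψ (z.2 - γ) * ∑ j ∈ s, cj K (sl f γ) j z.1 := by
  have h1 : ∀ j, Tp K ψ j 0 f z = ∫ γ, ψ (z.2 - γ) * cj K (sl f γ) j z.1 := by
    intro j
    have h2 := integrable_Tp hK hψ hf hM j 0 z
    rw [Measure.volume_eq_prod] at h2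
    rw [Tp, Measure.volume_eq_prod, integral_prod_symm _ h2]
    refine integral_congr_ae (Eventually.of_forall fun γ => ?_)
    simp only [cj, sl]
    rw [← integral_const_mul]
    refine integral_congr_ae (Eventually.of_forall fun ξ => ?_)
    simp only [mul_zero, sub_zero]
    ring
  have h3 : ∀ j ∈ s, Integrable fun γ => ψ (z.2 - γ) * cj K (sl f γ) j z.1 := by
    intro j _
    have h2 := integrable_Tp hK hψ hf hM j 0 z
    rw [Measure.volume_eq_prod] at h2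
    refine h2.integral_prod_right.congr (Eventually.of_forall fun γ => ?_)
    simp only [cj, sl]
    rw [← integral_const_mul]
    refine integral_congr_ae (Eventually.of_forall fun ξ => ?_)
    simp only [mul_zero, sub_zero]
    ring
  simp only [h1, Finset.mul_sum]
  rw [integral_finsetSum s h3]

/-- **the pointwise bound**: the tree operator at `z` is controlled at every point `w` of the box -/
theorem Tp_sum_le {L L' B : ℝ} {K ψ : ℝ → ℝ} (hK : LK L K) (hψ : LK L' ψ) (hB : ∀ t, |ψ t| ≤ B)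
    {f : ℝ × ℝ → ℝ} (hf : Measurable f) {M : ℝ} (hM : ∀ z, |f z| ≤ M) {A D : ℝ} {a b i n : ℕ}
    (hb : b ≤ i + 1) (hbn : b ≤ n) {v : ℝ} (hv : |v| ≤ A * 2 ^ a) (hvD : L' * |v| ≤ D * 2 ^ a)
    {z w : ℝ × ℝ} (h1 : |w.1 - z.1| ≤ 1 / 2 ^ i) (h2 : |w.2 - z.2| ≤ 1) :
    ‖∑ j ∈ Finset.Ico a b, Tp K ψ j v f z‖ₑ ≤
      ENNReal.ofReal (B * (1 + 8 * L) + 12 * D * L) *
        ∫⁻ γ in ball w.2 (A + 3), (Hs K n (sl f γ) w.1 + MF (fun t => ‖sl f γ t‖ₑ) w.1) := by
  have hL := hK.nonneg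
  have hL' := hψ.nonneg
  have hB0 : 0 ≤ B := (abs_nonneg _).trans (hB 0)
  have hp : (0 : ℝ) < 2 ^ a := by positivity
  have hA : 0 ≤ A := by
    by_contra h
    push Not at h
    have := abs_nonneg v
    nlinarith
  have hD : 0 ≤ D := by
    by_contra h
    push Not at h
    have := mul_nonneg hL' (abs_nonneg v)
    nlinarith
  have e1 : ∑ j ∈ Finset.Ico a b, Tp K ψ j v f z = ∑ j ∈ Finset.Ico a b, Tp K ψ j 0 f z +
      ∑ j ∈ Finset.Ico a b, (Tp K ψ j v f z - Tp K ψ j 0 f z) := by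
    rw [← Finset.sum_add_distrib]
    exact Finset.sum_congr rfl fun j _ => by ring
  set I := ∫⁻ γ in ball w.2 (A + 3), (Hs K n (sl f γ) w.1 + MF (fun t => ‖sl f γ t‖ₑ) w.1) with hI
  -- the main term
  have hmain : ‖∑ j ∈ Finset.Ico a b, Tp K ψ j 0 f z‖ₑ ≤ ENNReal.ofReal (B * (1 + 8 * L)) * I := by
    rw [Tp_zero hK hψ hf hM]
    refine (enorm_integral_le_lintegral_enorm _).trans ?_
    rw [hI, ← lintegral_const_mul' _ _ ENNReal.ofReal_ne_top,
      ← lintegral_indicator measurableSet_ball]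
    refine lintegral_mono fun γ => ?_
    by_cases hγ : γ ∈ ball w.2 (A + 3)
    · rw [indicator_of_mem hγ, enorm_mul]
      have h3 : ‖ψ (z.2 - γ)‖ₑ ≤ ENNReal.ofReal B := by
        rw [← ofReal_norm, Real.norm_eq_abs]
        exact ENNReal.ofReal_le_ofReal (hB _)
      have h4 : |z.1 - w.1| ≤ 1 / 2 ^ i := by rw [abs_sub_comm]; exact h1
      have h5 := sum_cj_le (a := a) hK (φ := sl f γ) (hf.comp measurable_prodMk_right)
        (fun t => hM (t, γ)) hb hbn h4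
      calc ‖ψ (z.2 - γ)‖ₑ * ‖∑ j ∈ Finset.Ico a b, cj K (sl f γ) j z.1‖ₑ
          ≤ ENNReal.ofReal B * (Hs K n (sl f γ) w.1 +
            ENNReal.ofReal (8 * L) * MF (fun t => ‖sl f γ t‖ₑ) w.1) := mul_le_mul' h3 h5
        _ ≤ ENNReal.ofReal B * (ENNReal.ofReal (1 + 8 * L) * Hs K n (sl f γ) w.1 +
            ENNReal.ofReal (1 + 8 * L) * MF (fun t => ‖sl f γ t‖ₑ) w.1) := by
            gcongr
            · have h6 : (1 : ℝ≥0∞) ≤ ENNReal.ofReal (1 + 8 * L) := by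
                rw [← ENNReal.ofReal_one]
                exact ENNReal.ofReal_le_ofReal (by linarith)
              calc Hs K n (sl f γ) w.1 = 1 * Hs K n (sl f γ) w.1 := (one_mul _).symm
                _ ≤ _ := by gcongr
            · linarith
        _ = ENNReal.ofReal (B * (1 + 8 * L)) *
            (Hs K n (sl f γ) w.1 + MF (fun t => ‖sl f γ t‖ₑ) w.1) := by
            rw [ENNReal.ofReal_mul hB0]
            ring
    · rw [indicator_of_notMem hγ]
      rw [mem_ball, not_lt, dist_comm, Real.dist_eq] at hγ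
      rw [hψ.zero (z.2 - γ)]
      · simp
      · have h4 := abs_add_le (w.2 - z.2) (z.2 - γ)
        rw [sub_add_sub_cancel] at h4
        linarith
  -- the error
  have herr : ‖∑ j ∈ Finset.Ico a b, (Tp K ψ j v f z - Tp K ψ j 0 f z)‖ₑ ≤
      ENNReal.ofReal (12 * D * L) * I := by
    refine (enorm_sum_le _ _).trans ?_
    calc ∑ j ∈ Finset.Ico a b, ‖Tp K ψ j v f z - Tp K ψ j 0 f z‖ₑ
        ≤ ∑ j ∈ Finset.Ico a b, ENNReal.ofReal (6 * L * L' * |v| * (1 / 2 ^ j)) * I := by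
          refine Finset.sum_le_sum fun j hj => ?_
          rw [Finset.mem_Ico] at hj
          have h3 : (1 : ℝ) / 2 ^ i ≤ 1 / 2 ^ j :=
            one_div_le_one_div_of_le (by positivity) (pow_le_pow_right₀ (by norm_num) (by omega))
          have h4 : |v| ≤ A * 2 ^ j := by
            refine hv.trans ?_
            gcongr
            · norm_num
            · exact hj.1
          refine (Tp_err hK hψ hf hM h4 (h1.trans h3) h2).trans ?_
          gcongr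
          rw [hI]
          refine lintegral_mono fun γ => ?_
          exact le_add_self
      _ = ENNReal.ofReal (∑ j ∈ Finset.Ico a b, 6 * L * L' * |v| * (1 / 2 ^ j)) * I := by
          rw [← Finset.sum_mul, ENNReal.ofReal_sum_of_nonneg fun j _ => by positivity]
      _ ≤ ENNReal.ofReal (12 * D * L) * I := by
          gcongr
          rw [← Finset.mul_sum]
          have h5 := geom_down (a := a) (b := b)
          have h6 : 0 ≤ ∑ j ∈ Finset.Ico a b, (1 : ℝ) / 2 ^ j :=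
            Finset.sum_nonneg fun j _ => by positivity
          calc 6 * L * L' * |v| * ∑ j ∈ Finset.Ico a b, (1 : ℝ) / 2 ^ j
              = 6 * L * (L' * |v|) * ∑ j ∈ Finset.Ico a b, (1 : ℝ) / 2 ^ j := by ring
            _ ≤ 6 * L * (D * 2 ^ a) * (2 / 2 ^ a) := by gcongr
            _ = 12 * D * L := by field_simp; ring
  rw [e1]
  refine (enorm_add_le _ _).trans ((add_le_add hmain herr).trans (le_of_eq ?_))
  rw [← add_mul, ← ENNReal.ofReal_add (by positivity) (by positivity)]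

end Vale.Agent.P112.TreeT2
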